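import Mathlib

/-!
Definitions for the elementary route to the Banaszczyk prefix bound (helper10).
-/

namespace Vale.Agent.Lib.P262.Ban

open MeasureTheory ProbabilityTheory Set
open scoped ENNReal

/-- The standard Gaussian measure on `Fin n → ℝ`. -/
noncomputable def gam (n : ℕ) : Measure (Fin n → ℝ) :=
  Measure.pi (fun _ => gaussianReal 0 1)

instance (n : ℕ) : IsProbabilityMeasure (gam n) := by
  unfold gam; infer_instance

/-- The star body `K * u`: points `p + s u` where `p` and `p + τ u` lie in `K`, `τ ≥ 2` and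
`-1 ≤ s ≤ τ + 1`; that is, all chords of `K` in the direction `u` that are at least two `u` long,
extended by `u` at both ends. -/
def star {E : Type*} [AddCommGroup E] [Module ℝ E] (K : Set E) (u : E) : Set E :=
  {x | ∃ p : E, ∃ τ s : ℝ, p ∈ K ∧ 2 ≤ τ ∧ p + τ • u ∈ K ∧ -1 ≤ s ∧ s ≤ τ + 1 ∧ x = p + s • u}

end Vale.Agent.Lib.P262.Ban
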