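import Vale.Agent.Lib.P262.Ban.Chobanyan
import Vale.Agent.Lib.P262.Ban.Defs
import Vale.Agent.Lib.P262.St.Defs

/-!
Assembly of Banaszczyk's rearrangement bound from the signed prefix theorem and the Gaussian tail.
-/

namespace Vale.Agent.Lib.P262.Ban

open MeasureTheory ProbabilityTheory Set
open scoped ENNReal

/-- The radius `R` makes the total tail at most one half. -/
theorem tail_numbers (k N : ℕ) (R : ℝ) (hR : R ^ 2 = 4 * k * Real.log 2 + 4 * Real.log (2 * (N + 1))) :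
    ((N : ℝ≥0∞) + 1) * ENNReal.ofReal (2 ^ k * Real.exp (-R ^ 2 / 4)) ≤ 1 / 2 := by
  have hN : (0 : ℝ) < 2 * ((N : ℝ) + 1) := by positivity
  have h1 : (2 : ℝ) ^ k * Real.exp (-R ^ 2 / 4) = 1 / (2 * ((N : ℝ) + 1)) := by
    have h2 : -R ^ 2 / 4 = -(k * Real.log 2) + -Real.log (2 * ((N : ℝ) + 1)) := by
      rw [hR]
      ring
    rw [h2, Real.exp_add, Real.exp_neg, Real.exp_neg, Real.exp_log hN, Real.exp_nat_mul,
      Real.exp_log (by norm_num : (0 : ℝ) < 2)]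
    field_simp
  rw [h1]
  have h3 : ((N : ℝ≥0∞) + 1) = ENNReal.ofReal ((N : ℝ) + 1) := by
    rw [ENNReal.ofReal_add (by positivity) (by norm_num), ENNReal.ofReal_natCast, ENNReal.ofReal_one]
  rw [h3, ← ENNReal.ofReal_mul (by positivity)]
  have h4 : ((N : ℝ) + 1) * (1 / (2 * ((N : ℝ) + 1))) = 1 / 2 := by
    field_simp
  rw [h4]
  rw [ENNReal.ofReal_div_of_pos (by norm_num : (0 : ℝ) < 2)]
  simp

theorem radius_bound (k N : ℕ) (hk : 1 ≤ k) (R : ℝ) (hR0 : 0 ≤ R)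
    (hR : R ^ 2 = 4 * k * Real.log 2 + 4 * Real.log (2 * (N + 1))) :
    R ≤ 3 * (Real.sqrt k + Real.sqrt (Real.log (N + 1))) := by
  have hkR : (1 : ℝ) ≤ k := by exact_mod_cast hk
  have hN : (0 : ℝ) < (N : ℝ) + 1 := by positivity
  have hL0 : 0 ≤ Real.log ((N : ℝ) + 1) := Real.log_nonneg (by
    have : (0 : ℝ) ≤ N := Nat.cast_nonneg _
    linarith)
  have hlog2 : Real.log 2 ≤ 1 := by
    have := Real.log_two_lt_d9
    linarith
  have hlog20 : 0 ≤ Real.log 2 := Real.log_nonneg (by norm_num)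
  have h1 : Real.log (2 * ((N : ℝ) + 1)) = Real.log 2 + Real.log ((N : ℝ) + 1) :=
    Real.log_mul (by norm_num) hN.ne'
  set a := Real.sqrt k with ha
  set b := Real.sqrt (Real.log ((N : ℝ) + 1)) with hb
  have ha2 : a ^ 2 = k := Real.sq_sqrt (by positivity)
  have hb2 : b ^ 2 = Real.log ((N : ℝ) + 1) := Real.sq_sqrt hL0
  have ha0 : 0 ≤ a := Real.sqrt_nonneg _
  have hb0 : 0 ≤ b := Real.sqrt_nonneg _
  have h2 : R ^ 2 ≤ (3 * (a + b)) ^ 2 := by
    rw [hR, h1]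
    have h3 : 4 * (k : ℝ) * Real.log 2 ≤ 4 * k * 1 := by gcongr
    have h4 : 0 ≤ a * b := mul_nonneg ha0 hb0
    nlinarith
  exact abs_le_of_sq_le_sq' h2 (by positivity) |>.2

/-- Assembly: the signed prefix theorem and the Gaussian tail give `BanBound`. -/
theorem banBound_of
    (Hsigned : ∀ {k N : ℕ} (w : Fin N → EuclideanSpace ℝ (Fin k)), (∀ i, ‖w i‖ ≤ 1 / 500) →
      ∀ R : ℝ, 0 ≤ R →
      (N + 1 : ℝ≥0∞) * stdGaussian (EuclideanSpace ℝ (Fin k)) (Metric.closedBall 0 R)ᶜ ≤ 1 / 2 →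
      ∃ s : Fin N → ℝ, (∀ i, s i = 1 ∨ s i = -1) ∧ ∀ m : ℕ, m ≤ N →
        ‖∑ i ∈ Finset.univ.filter (fun i : Fin N => i.val < m), s i • w i‖ ≤ 2 * R)
    (Htail : ∀ (k : ℕ) (R : ℝ), 0 ≤ R →
      stdGaussian (EuclideanSpace ℝ (Fin k)) (Metric.closedBall 0 R)ᶜ
        ≤ ENNReal.ofReal (2 ^ k * Real.exp (-R ^ 2 / 4))) :
    St.BanBound 3000 := by
  intro k N v hv hsum
  rcases Nat.eq_zero_or_pos k with rfl | hk
  · refine ⟨1, fun m _ => ?_⟩
    have h0 : ∀ x : EuclideanSpace ℝ (Fin 0), ‖x‖ = 0 := fun x => by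
      rw [Subsingleton.elim x 0, norm_zero]
    rw [h0]
    positivity
  have hNpos : (0 : ℝ) < (N : ℝ) + 1 := by positivity
  have hlog1 : 0 ≤ Real.log (2 * ((N : ℝ) + 1)) := Real.log_nonneg (by
    have : (0 : ℝ) ≤ N := Nat.cast_nonneg _
    linarith)
  have hlog2 : 0 ≤ Real.log 2 := Real.log_nonneg (by norm_num)
  set R : ℝ := Real.sqrt (4 * k * Real.log 2 + 4 * Real.log (2 * ((N : ℝ) + 1))) with hRdef
  have hR0 : 0 ≤ R := Real.sqrt_nonneg _
  have hR : R ^ 2 = 4 * k * Real.log 2 + 4 * Real.log (2 * ((N : ℝ) + 1)) :=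
    Real.sq_sqrt (by positivity)
  have htail : (N + 1 : ℝ≥0∞) * stdGaussian (EuclideanSpace ℝ (Fin k)) (Metric.closedBall 0 R)ᶜ
      ≤ 1 / 2 := by
    refine le_trans ?_ (tail_numbers k N R hR)
    gcongr
    exact Htail k R hR0
  have hD : ∀ π : Equiv.Perm (Fin N), ∃ s : Fin N → ℝ, (∀ i, s i = 1 ∨ s i = -1) ∧
      ∀ m : ℕ, m ≤ N →
        ‖∑ i ∈ Finset.univ.filter (fun i : Fin N => i.val < m), s i • v (π i)‖ ≤ 1000 * R := by
    intro π
    obtain ⟨s, hs1, hs2⟩ := Hsigned (fun i => (1 / 500 : ℝ) • v (π i)) (fun i => by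
      rw [norm_smul]
      have := hv (π i)
      norm_num
      linarith) R hR0 htail
    refine ⟨s, hs1, fun m hm => ?_⟩
    have h1 := hs2 m hm
    have h2 : ∑ i ∈ Finset.univ.filter (fun i : Fin N => i.val < m), s i • v (π i)
        = (500 : ℝ) • ∑ i ∈ Finset.univ.filter (fun i : Fin N => i.val < m),
            s i • (1 / 500 : ℝ) • v (π i) := by
      rw [Finset.smul_sum]
      refine Finset.sum_congr rfl fun i _ => ?_
      rw [smul_smul, smul_smul]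
      congr 1
      ring
    rw [h2, norm_smul]
    norm_num
    linarith
  obtain ⟨π, hπ⟩ := chobanyan v hsum (1000 * R) hD
  refine ⟨π, fun m hm => (hπ m hm).trans ?_⟩
  have h3 := radius_bound k N hk R hR0 hR
  linarith

end Vale.Agent.Lib.P262.Ban
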