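import Vale.Agent.Lib.P262.Ban.Defs

/-!
Signed prefix sums from the star inequality (conditional form: the star facts are hypotheses here).
-/

namespace Vale.Agent.Lib.P262.Ban

open MeasureTheory ProbabilityTheory Set
open scoped ENNReal

/-- The nested bodies: `K_N` is the ball, `K_i` is the ball intersected with the star of `K_{i+1}`. -/
noncomputable def bodies {k : ℕ} (R : ℝ) : (N : ℕ) → (Fin N → EuclideanSpace ℝ (Fin k)) →
    Set (EuclideanSpace ℝ (Fin k))
  | 0, _ => Metric.closedBall 0 R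
  | N + 1, w => Metric.closedBall 0 R ∩ star (bodies R N (Fin.tail w)) (w 0)

theorem walk_bodies {k : ℕ} (R : ℝ)
    (Hstep : ∀ {K : Set (EuclideanSpace ℝ (Fin k))}, Convex ℝ K → ∀ {u x : EuclideanSpace ℝ (Fin k)},
      x ∈ star K u → x + u ∈ K ∨ x - u ∈ K)
    (Hconv : ∀ (N : ℕ) (w : Fin N → EuclideanSpace ℝ (Fin k)), Convex ℝ (bodies R N w)) :
    ∀ (N : ℕ) (w : Fin N → EuclideanSpace ℝ (Fin k)) (x : EuclideanSpace ℝ (Fin k)),
      x ∈ bodies R N w → ∃ s : Fin N → ℝ, (∀ i, s i = 1 ∨ s i = -1) ∧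
        ∀ m : ℕ, m ≤ N →
          x + ∑ i ∈ Finset.univ.filter (fun i : Fin N => i.val < m), s i • w i
            ∈ Metric.closedBall (0 : EuclideanSpace ℝ (Fin k)) R := by
  intro N
  induction N with
  | zero =>
    intro w x hx
    refine ⟨fun i => i.elim0, fun i => i.elim0, ?_⟩
    intro m _
    simpa [bodies] using hx
  | succ N ih =>
    intro w x hx
    obtain ⟨hxB, hxs⟩ := hx
    have hcases : ∃ ε : ℝ, (ε = 1 ∨ ε = -1) ∧ x + ε • w 0 ∈ bodies R N (Fin.tail w) := by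
      rcases Hstep (Hconv N (Fin.tail w)) hxs with h | h
      · exact ⟨1, Or.inl rfl, by simpa using h⟩
      · refine ⟨-1, Or.inr rfl, ?_⟩
        simpa [sub_eq_add_neg] using h
    obtain ⟨ε, hε, hx'⟩ := hcases
    obtain ⟨s', hs'1, hs'2⟩ := ih (Fin.tail w) _ hx'
    refine ⟨Fin.cons ε s', ?_, ?_⟩
    · intro i
      refine Fin.cases ?_ (fun j => ?_) i
      · simpa using hε
      · simpa using hs'1 j
    · intro m hm
      cases m with
      | zero => simpa using hxB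
      | succ m =>
        have h1 := hs'2 m (by omega)
        have h2 : ∑ i ∈ Finset.univ.filter (fun i : Fin (N + 1) => i.val < m + 1),
              (Fin.cons ε s' : Fin (N + 1) → ℝ) i • w i
            = ε • w 0 + ∑ i ∈ Finset.univ.filter (fun i : Fin N => i.val < m),
              s' i • Fin.tail w i := by
          rw [Finset.sum_filter, Finset.sum_filter, Fin.sum_univ_succ]
          simp [Fin.tail]
        rw [h2, ← add_assoc]
        exact h1

theorem measure_bodies {k : ℕ} (R : ℝ) (hR : 0 ≤ R)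
    (Hgam : ∀ {K : Set (EuclideanSpace ℝ (Fin k))}, IsCompact K → Convex ℝ K →
      1 / 2 ≤ stdGaussian (EuclideanSpace ℝ (Fin k)) K → ∀ {u : EuclideanSpace ℝ (Fin k)},
      ‖u‖ ≤ 1 / 500 → stdGaussian (EuclideanSpace ℝ (Fin k)) K
        ≤ stdGaussian (EuclideanSpace ℝ (Fin k)) (star K u))
    (Hcomp : ∀ {K : Set (EuclideanSpace ℝ (Fin k))}, IsCompact K → ∀ u : EuclideanSpace ℝ (Fin k),
      IsCompact (star K u))
    (Hconv : ∀ {K : Set (EuclideanSpace ℝ (Fin k))}, Convex ℝ K → ∀ u : EuclideanSpace ℝ (Fin k),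
      Convex ℝ (star K u)) :
    ∀ (N : ℕ) (w : Fin N → EuclideanSpace ℝ (Fin k)), (∀ i, ‖w i‖ ≤ 1 / 500) →
      IsCompact (bodies R N w) ∧ Convex ℝ (bodies R N w) ∧
      ((N + 1 : ℝ≥0∞) * stdGaussian (EuclideanSpace ℝ (Fin k)) (Metric.closedBall 0 R)ᶜ ≤ 1 / 2 →
        stdGaussian (EuclideanSpace ℝ (Fin k)) (bodies R N w)ᶜ
          ≤ (N + 1 : ℝ≥0∞) * stdGaussian (EuclideanSpace ℝ (Fin k)) (Metric.closedBall 0 R)ᶜ) := by
  set γ := stdGaussian (EuclideanSpace ℝ (Fin k)) with hγ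
  set ε := γ (Metric.closedBall 0 R)ᶜ with hε
  intro N
  induction N with
  | zero =>
    intro w _
    refine ⟨isCompact_closedBall 0 R, convex_closedBall 0 R, ?_⟩
    intro _
    simp [bodies, hε]
  | succ N ih =>
    intro w hw
    obtain ⟨hc, hv, hm⟩ := ih (Fin.tail w) (fun i => hw i.succ)
    have hcstar := Hcomp hc (w 0)
    have hvstar := Hconv hv (w 0)
    refine ⟨(isCompact_closedBall 0 R).inter hcstar, (convex_closedBall 0 R).inter hvstar, ?_⟩
    intro hle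
    have hN1 : ((N + 1 : ℕ) : ℝ≥0∞) = (N : ℝ≥0∞) + 1 := by push_cast; rfl
    have hle' : ((N : ℝ≥0∞) + 1) * ε ≤ 1 / 2 := by
      refine le_trans ?_ hle
      gcongr
      norm_cast
      omega
    have hK := hm hle'
    set K := bodies R N (Fin.tail w) with hKdef
    have hKm : MeasurableSet K := hc.measurableSet
    have hKs : MeasurableSet (star K (w 0)) := hcstar.measurableSet
    have h12 : (1 : ℝ≥0∞) / 2 ≤ γ K := by
      have h1 : γ Kᶜ ≤ 1 / 2 := hK.trans hle'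
      have h2 : γ K + γ Kᶜ = 1 := prob_add_prob_compl hKm
      have h3 : (1 : ℝ≥0∞) = 1 / 2 + 1 / 2 := by
        rw [ENNReal.add_halves]
      by_contra hlt
      push Not at hlt
      have h4 : γ K + γ Kᶜ < 1 / 2 + 1 / 2 := ENNReal.add_lt_add_of_lt_of_le (by simp) hlt h1
      rw [h2, ← h3] at h4
      exact lt_irrefl _ h4
    have h1 := Hgam hc hv h12 (hw 0)
    have h2 : γ (star K (w 0))ᶜ ≤ γ Kᶜ := by
      rw [prob_compl_eq_one_sub hKs, prob_compl_eq_one_sub hKm]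
      exact tsub_le_tsub_left h1 _
    have h3 : (bodies R (N + 1) w)ᶜ = (Metric.closedBall 0 R)ᶜ ∪ (star K (w 0))ᶜ := by
      simp only [bodies, hKdef, compl_inter]
    rw [h3]
    calc γ ((Metric.closedBall 0 R)ᶜ ∪ (star K (w 0))ᶜ)
        ≤ γ (Metric.closedBall 0 R)ᶜ + γ (star K (w 0))ᶜ := measure_union_le _ _
      _ ≤ ε + ((N : ℝ≥0∞) + 1) * ε := by gcongr; exact h2.trans hK
      _ = (((N + 1 : ℕ) : ℝ≥0∞) + 1) * ε := by
          rw [hN1]
          ring

/-- Conditional form of the signed prefix theorem. -/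
theorem signed_prefix_of {k N : ℕ}
    (Hgam : ∀ {K : Set (EuclideanSpace ℝ (Fin k))}, IsCompact K → Convex ℝ K →
      1 / 2 ≤ stdGaussian (EuclideanSpace ℝ (Fin k)) K → ∀ {u : EuclideanSpace ℝ (Fin k)},
      ‖u‖ ≤ 1 / 500 → stdGaussian (EuclideanSpace ℝ (Fin k)) K
        ≤ stdGaussian (EuclideanSpace ℝ (Fin k)) (star K u))
    (Hcomp : ∀ {K : Set (EuclideanSpace ℝ (Fin k))}, IsCompact K → ∀ u : EuclideanSpace ℝ (Fin k),
      IsCompact (star K u))
    (Hconv : ∀ {K : Set (EuclideanSpace ℝ (Fin k))}, Convex ℝ K → ∀ u : EuclideanSpace ℝ (Fin k),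
      Convex ℝ (star K u))
    (Hstep : ∀ {K : Set (EuclideanSpace ℝ (Fin k))}, Convex ℝ K → ∀ {u x : EuclideanSpace ℝ (Fin k)},
      x ∈ star K u → x + u ∈ K ∨ x - u ∈ K)
    (w : Fin N → EuclideanSpace ℝ (Fin k)) (hw : ∀ i, ‖w i‖ ≤ 1 / 500) (R : ℝ) (hR : 0 ≤ R)
    (hε : (N + 1 : ℝ≥0∞) * stdGaussian (EuclideanSpace ℝ (Fin k)) (Metric.closedBall 0 R)ᶜ ≤ 1 / 2) :
    ∃ s : Fin N → ℝ, (∀ i, s i = 1 ∨ s i = -1) ∧ ∀ m : ℕ, m ≤ N →
      ‖∑ i ∈ Finset.univ.filter (fun i : Fin N => i.val < m), s i • w i‖ ≤ 2 * R := by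
  set γ := stdGaussian (EuclideanSpace ℝ (Fin k)) with hγ
  obtain ⟨hc, _, hm⟩ := measure_bodies R hR Hgam Hcomp Hconv N w hw
  have hK := (hm hε).trans hε
  have hKm : MeasurableSet (bodies R N w) := hc.measurableSet
  have hne : (bodies R N w).Nonempty := by
    by_contra hemp
    rw [not_nonempty_iff_eq_empty] at hemp
    rw [hemp, compl_empty, measure_univ] at hK
    norm_num at hK
  obtain ⟨x, hx⟩ := hne
  have hconvAll : ∀ (N : ℕ) (w : Fin N → EuclideanSpace ℝ (Fin k)), Convex ℝ (bodies R N w) := by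
    intro N
    induction N with
    | zero => intro w; exact convex_closedBall 0 R
    | succ N ih => intro w; exact (convex_closedBall 0 R).inter (Hconv (ih _) _)
  obtain ⟨s, hs1, hs2⟩ := walk_bodies R Hstep hconvAll N w x hx
  refine ⟨s, hs1, ?_⟩
  intro m hm'
  have hx0 := hs2 0 (Nat.zero_le _)
  have hxm := hs2 m hm'
  simp only [mem_closedBall_zero_iff] at hx0 hxm
  have hx0' : ‖x‖ ≤ R := by simpa using hx0
  set T := ∑ i ∈ Finset.univ.filter (fun i : Fin N => i.val < m), s i • w i with hT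
  have : T = (x + T) - x := by abel
  rw [this]
  calc ‖(x + T) - x‖ ≤ ‖x + T‖ + ‖x‖ := norm_sub_le _ _
    _ ≤ 2 * R := by linarith

end Vale.Agent.Lib.P262.Ban
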