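import Mathlib

/-!
Gaussian tail bound on Euclidean space (helper96).
-/

namespace Vale.Agent.Lib.P262.Ban

open MeasureTheory ProbabilityTheory Set
open scoped ENNReal

/-- The density computation: `exp (t ^ 2 / 4)` times the Gaussian density. -/
private lemma pdf_mul (t : ℝ) :
    gaussianPDFReal 0 1 t * Real.exp (t ^ 2 / 4) =
      (Real.sqrt (2 * Real.pi))⁻¹ * Real.exp (-(1 / 4) * t ^ 2) := by
  have h : gaussianPDFReal 0 1 t =
      (Real.sqrt (2 * Real.pi))⁻¹ * Real.exp (-(t ^ 2) / 2) := by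
    simp [gaussianPDFReal]
  rw [h, mul_assoc, ← Real.exp_add]
  congr 2
  ring

private lemma integrable_exp_sq : Integrable (fun t : ℝ => Real.exp (t ^ 2 / 4))
    (gaussianReal 0 1) := by
  have hm := measurable_gaussianPDF 0 (1 : NNReal)
  rw [gaussianReal_of_var_ne_zero 0 (one_ne_zero),
    integrable_withDensity_iff_integrable_smul' hm (Filter.Eventually.of_forall
      (fun _ => gaussianPDF_lt_top))]
  have h2 : Integrable (fun t : ℝ => (Real.sqrt (2 * Real.pi))⁻¹ * Real.exp (-(1 / 4) * t ^ 2)) :=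
    (integrable_exp_neg_mul_sq (by norm_num : (0 : ℝ) < 1 / 4)).const_mul _
  refine h2.congr (Filter.Eventually.of_forall fun t => ?_)
  simp only [smul_eq_mul]
  rw [← pdf_mul t, gaussianPDF_def]
  simp [ENNReal.toReal_ofReal (gaussianPDFReal_nonneg 0 1 t)]

private lemma integral_exp_sq : ∫ t : ℝ, Real.exp (t ^ 2 / 4) ∂(gaussianReal 0 1) = Real.sqrt 2 := by
  rw [integral_gaussianReal_eq_integral_smul one_ne_zero]
  simp only [smul_eq_mul, pdf_mul]
  rw [integral_const_mul, integral_gaussian]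
  have hpi := Real.pi_pos
  have h1 : Real.pi / (1 / 4) = 2 * (2 * Real.pi) := by ring
  have h4 : Real.sqrt (Real.pi / (1 / 4)) = Real.sqrt 2 * Real.sqrt (2 * Real.pi) := by
    rw [h1, Real.sqrt_mul (by norm_num : (0 : ℝ) ≤ 2)]
  rw [h4]
  have h3 : Real.sqrt (2 * Real.pi) ≠ 0 := by positivity
  rw [mul_comm (Real.sqrt 2), ← mul_assoc, inv_mul_cancel₀ h3, one_mul]

/-- Gaussian tail bound: the standard Gaussian measure of the complement of the ball of radius `R`
in `ℝ^k` is at most `2 ^ k * exp (- R ^ 2 / 4)`. -/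
theorem tail_bound (k : ℕ) (R : ℝ) (hR : 0 ≤ R) :
    stdGaussian (EuclideanSpace ℝ (Fin k)) (Metric.closedBall 0 R)ᶜ ≤
      ENNReal.ofReal (2 ^ k * Real.exp (-R ^ 2 / 4)) := by
  set P : Measure (Fin k → ℝ) := Measure.pi (fun _ => gaussianReal 0 1) with hP
  have : IsProbabilityMeasure P := by rw [hP]; infer_instance
  set f : (Fin k → ℝ) → ℝ := fun x => ∏ i, Real.exp ((x i) ^ 2 / 4) with hf
  have hfnn : 0 ≤ᵐ[P] f := Filter.Eventually.of_forall fun x =>
    Finset.prod_nonneg fun i _ => (Real.exp_pos _).le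
  have hfint : Integrable f P := Integrable.fintype_prod (fun _ => integrable_exp_sq)
  have hfval : ∫ x, f x ∂P = Real.sqrt 2 ^ k := by
    have := integral_fintype_prod_eq_pow (ι := Fin k) (𝕜 := ℝ)
      (fun t : ℝ => Real.exp (t ^ 2 / 4)) (μ := gaussianReal 0 1)
    simpa [integral_exp_sq, Fintype.card_fin] using this
  have hmarkov := mul_meas_ge_le_integral_of_nonneg hfnn hfint (Real.exp (R ^ 2 / 4))
  rw [hfval] at hmarkov
  have hmeas : Measurable (WithLp.toLp 2 : (Fin k → ℝ) → EuclideanSpace ℝ (Fin k)) := by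
    fun_prop
  have hset : MeasurableSet ((Metric.closedBall (0 : EuclideanSpace ℝ (Fin k)) R)ᶜ) :=
    Metric.isClosed_closedBall.measurableSet.compl
  rw [← map_pi_eq_stdGaussian, Measure.map_apply hmeas hset]
  have hsub : (WithLp.toLp 2 : (Fin k → ℝ) → EuclideanSpace ℝ (Fin k)) ⁻¹'
      (Metric.closedBall (0 : EuclideanSpace ℝ (Fin k)) R)ᶜ ⊆ {x | Real.exp (R ^ 2 / 4) ≤ f x} := by
    intro x hx
    simp only [mem_preimage, mem_compl_iff, Metric.mem_closedBall, dist_zero_right, not_le] at hx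
    have hn : ‖(WithLp.toLp 2 x : EuclideanSpace ℝ (Fin k))‖ ^ 2 = ∑ i, (x i) ^ 2 := by
      rw [EuclideanSpace.real_norm_sq_eq]
    have hfx : f x = Real.exp (‖(WithLp.toLp 2 x : EuclideanSpace ℝ (Fin k))‖ ^ 2 / 4) := by
      rw [hn, hf]
      simp only
      rw [← Real.exp_sum, Finset.sum_div]
    show Real.exp (R ^ 2 / 4) ≤ f x
    rw [hfx]
    apply Real.exp_le_exp.mpr
    have : R ^ 2 ≤ ‖(WithLp.toLp 2 x : EuclideanSpace ℝ (Fin k))‖ ^ 2 :=
      pow_le_pow_left₀ hR hx.le 2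
    linarith
  have hle1 : P ((WithLp.toLp 2 : (Fin k → ℝ) → EuclideanSpace ℝ (Fin k)) ⁻¹'
      (Metric.closedBall (0 : EuclideanSpace ℝ (Fin k)) R)ᶜ) ≤ P {x | Real.exp (R ^ 2 / 4) ≤ f x} :=
    measure_mono hsub
  refine hle1.trans ?_
  have hreal : P.real {x | Real.exp (R ^ 2 / 4) ≤ f x} ≤ 2 ^ k * Real.exp (-R ^ 2 / 4) := by
    have hexp : Real.exp (R ^ 2 / 4) * Real.exp (-R ^ 2 / 4) = 1 := by
      rw [← Real.exp_add]
      have : R ^ 2 / 4 + -R ^ 2 / 4 = 0 := by ring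
      rw [this, Real.exp_zero]
    have hs2 : Real.sqrt 2 ^ k ≤ 2 ^ k := by
      apply pow_le_pow_left₀ (Real.sqrt_nonneg _)
      rw [Real.sqrt_le_left (by norm_num)]
      norm_num
    have hpos : 0 < Real.exp (-R ^ 2 / 4) := Real.exp_pos _
    calc P.real {x | Real.exp (R ^ 2 / 4) ≤ f x}
        = (Real.exp (R ^ 2 / 4) * P.real {x | Real.exp (R ^ 2 / 4) ≤ f x}) *
            Real.exp (-R ^ 2 / 4) := by
          rw [mul_comm (Real.exp (R ^ 2 / 4)), mul_assoc, hexp, mul_one]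
      _ ≤ Real.sqrt 2 ^ k * Real.exp (-R ^ 2 / 4) :=
          mul_le_mul_of_nonneg_right hmarkov hpos.le
      _ ≤ 2 ^ k * Real.exp (-R ^ 2 / 4) := mul_le_mul_of_nonneg_right hs2 hpos.le
  rw [← ENNReal.ofReal_toReal (measure_ne_top P _)]
  exact ENNReal.ofReal_le_ofReal hreal

end Vale.Agent.Lib.P262.Ban
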