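import Vale.Agent.Lib.P262.Ban.StarGauss
import Vale.Agent.Lib.P262.Ban.SignedOf
import Vale.Agent.Lib.P262.Ban.BanBoundOf
import Vale.Agent.Lib.P262.Ban.Tail

/-!
Banaszczyk's rearrangement bound, with the elementary proof of the key lemma from the midpoint
Prekopa-Leindler inequality (helper10, helper49, helper6, helper96).
-/

namespace Vale.Agent.Lib.P262.Ban

open MeasureTheory ProbabilityTheory Set
open scoped ENNReal

/-- Signed prefix sums of short vectors stay in a ball that carries almost all the Gaussian mass. -/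
theorem signed_prefix {k N : ℕ} (w : Fin N → EuclideanSpace ℝ (Fin k)) (hw : ∀ i, ‖w i‖ ≤ 1 / 500)
    (R : ℝ) (hR : 0 ≤ R)
    (hε : (N + 1 : ℝ≥0∞) * stdGaussian (EuclideanSpace ℝ (Fin k)) (Metric.closedBall 0 R)ᶜ ≤ 1 / 2) :
    ∃ s : Fin N → ℝ, (∀ i, s i = 1 ∨ s i = -1) ∧ ∀ m : ℕ, m ≤ N →
      ‖∑ i ∈ Finset.univ.filter (fun i : Fin N => i.val < m), s i • w i‖ ≤ 2 * R :=
  signed_prefix_of (fun hK hc h _ hu => star_gamma hK hc h hu) (fun hK u => star_isCompact hK u)
    (fun hc u => star_convex hc u) (fun hc _ _ hx => star_step hc hx) w hw R hR hε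

/-- Banaszczyk's rearrangement bound with an explicit constant. -/
theorem banBound : St.BanBound 3000 :=
  banBound_of (fun w hw R hR hε => signed_prefix w hw R hR hε) tail_bound

end Vale.Agent.Lib.P262.Ban
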