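import Mathlib

/-!
Chobanyan's transference: signed prefix bounds for all orders give a good order of a zero-sum family.
-/

namespace Vale.Agent.Lib.P262.Ban

section Lists

variable {α E : Type*} [NormedAddCommGroup E] [NormedSpace ℝ E]

lemma take_filter_eq (σ : α → Bool) (l : List α) (m : ℕ) :
    ∃ k, k ≤ l.length ∧ (l.filter σ).take m = (l.take k).filter σ := by
  induction l generalizing m with
  | nil => exact ⟨0, le_rfl, by simp⟩
  | cons a l ih =>
    by_cases ha : σ a = true
    · cases m with
      | zero => exact ⟨0, Nat.zero_le _, by simp⟩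
      | succ m =>
        obtain ⟨k, hk, h⟩ := ih m
        refine ⟨k + 1, by simpa using hk, ?_⟩
        simp [ha, h]
    · obtain ⟨k, hk, h⟩ := ih m
      refine ⟨k + 1, by simpa using hk, ?_⟩
      simp [ha, h]

lemma two_smul_filter (σ : α → Bool) (v w : α → E) (hp : ∀ a, σ a = true → w a = v a)
    (hm : ∀ a, σ a = false → w a = -v a) (L : List α) :
    (2 : ℝ) • ((L.filter σ).map v).sum = (L.map v).sum + (L.map w).sum ∧
    (2 : ℝ) • ((L.filter (fun a => !σ a)).map v).sum = (L.map v).sum - (L.map w).sum := by
  induction L with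
  | nil => simp
  | cons a L ih =>
    obtain ⟨h1, h2⟩ := ih
    cases ha : σ a with
    | true =>
      have h3 := hp a ha
      simp only [List.filter_cons, ha, if_true, Bool.not_true, Bool.false_eq_true, if_false,
        List.map_cons, List.sum_cons, smul_add, h1, h2, h3]
      constructor
      · rw [two_smul]
        abel
      · abel
    | false =>
      have h3 := hm a ha
      simp only [List.filter_cons, ha, if_true, Bool.not_false, Bool.false_eq_true, if_false,
        List.map_cons, List.sum_cons, smul_add, h1, h2, h3]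
      constructor
      · abel
      · rw [two_smul]
        abel

lemma half_bound {x a b : E} {A D : ℝ} (h : (2 : ℝ) • x = a + b) (ha : ‖a‖ ≤ A) (hb : ‖b‖ ≤ D) :
    ‖x‖ ≤ (A + D) / 2 := by
  have h1 : ‖(2 : ℝ) • x‖ = 2 * ‖x‖ := by
    rw [norm_smul]
    norm_num
  have h2 : ‖(2 : ℝ) • x‖ ≤ A + D := by
    rw [h]
    exact (norm_add_le _ _).trans (add_le_add ha hb)
  linarith

/-- The key step: plus elements in order, then minus elements in reverse order. -/
lemma flip_bound (σ : α → Bool) (v w : α → E) (hp : ∀ a, σ a = true → w a = v a)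
    (hm : ∀ a, σ a = false → w a = -v a) (l : List α) (hsum : (l.map v).sum = 0) (A D : ℝ)
    (hA : ∀ k, k ≤ l.length → ‖((l.take k).map v).sum‖ ≤ A)
    (hD : ∀ k, k ≤ l.length → ‖((l.take k).map w).sum‖ ≤ D) (m : ℕ) :
    ‖(((l.filter σ ++ (l.filter (fun a => !σ a)).reverse).take m).map v).sum‖ ≤ (A + D) / 2 := by
  set P := l.filter σ with hP
  set Q := l.filter (fun a => !σ a) with hQ
  have hPre : ∀ r, ‖((P.take r).map v).sum‖ ≤ (A + D) / 2 := by
    intro r
    obtain ⟨k, hk, h⟩ := take_filter_eq σ l r
    rw [h]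
    exact half_bound (two_smul_filter σ v w hp hm (l.take k)).1 (hA k hk) (hD k hk)
  have hQre : ∀ r, ‖((Q.take r).map v).sum‖ ≤ (A + D) / 2 := by
    intro r
    obtain ⟨k, hk, h⟩ := take_filter_eq (fun a => !σ a) l r
    rw [h]
    have h2 := (two_smul_filter σ v w hp hm (l.take k)).2
    rw [sub_eq_add_neg] at h2
    exact half_bound h2 (hA k hk) (by rw [norm_neg]; exact hD k hk)
  have hPQ : (P.map v).sum + (Q.map v).sum = 0 := by
    have h2 := two_smul_filter σ v w hp hm l
    have h3 : (2 : ℝ) • ((P.map v).sum + (Q.map v).sum) = (2 : ℝ) • (0 : E) := by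
      rw [smul_add, h2.1, h2.2, hsum, smul_zero]
      abel
    exact smul_right_injective E (by norm_num : (2 : ℝ) ≠ 0) h3
  rcases le_or_gt m P.length with hmP | hmP
  · rw [List.take_append_of_le_length hmP]
    exact hPre m
  · rw [List.take_append, List.take_of_length_le hmP.le]
    set r := m - P.length with hr
    rw [List.map_append, List.sum_append]
    -- split the reversed part
    have h1 : (((Q.reverse.take r).map v).sum) + ((Q.reverse.drop r).map v).sum = (Q.map v).sum := by
      rw [← List.sum_append, ← List.map_append, List.take_append_drop, List.map_reverse,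
        List.sum_reverse]
    have h2 : (Q.reverse.drop r) = (Q.take (Q.length - r)).reverse := by
      rw [List.drop_reverse]
    have h3 : ((Q.reverse.drop r).map v).sum = ((Q.take (Q.length - r)).map v).sum := by
      rw [h2, List.map_reverse, List.sum_reverse]
    have h4 : (P.map v).sum + ((Q.reverse.take r).map v).sum
        = -((Q.take (Q.length - r)).map v).sum := by
      rw [← h3]
      have h5 : (P.map v).sum = -(Q.map v).sum := eq_neg_of_add_eq_zero_left hPQ
      rw [h5, ← h1]
      abel
    rw [h4, norm_neg]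
    exact hQre _

end Lists

lemma sum_take_ofFn' {N : ℕ} {A : Type*} [AddCommMonoid A] (g : Fin N → A) (m : ℕ) :
    ((List.ofFn g).take m).sum = ∑ i ∈ Finset.univ.filter (fun i : Fin N => i.val < m), g i := by
  induction N generalizing m with
  | zero => simp
  | succ n ih =>
    cases m with
    | zero => simp
    | succ m =>
      rw [List.ofFn_succ, List.take_succ_cons, List.sum_cons, ih]
      rw [Finset.sum_filter, Finset.sum_filter, Fin.sum_univ_succ]
      simp

lemma exists_perm_of_perm {N : ℕ} (l : List (Fin N))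
    (hl : l.Perm (List.ofFn (id : Fin N → Fin N))) :
    ∃ π : Equiv.Perm (Fin N), List.ofFn π = l := by
  have hlen : l.length = N := by simpa using hl.length_eq
  have hnd : l.Nodup := hl.nodup_iff.mpr (List.nodup_ofFn.mpr Function.injective_id)
  let g : Fin N → Fin N := fun i => l[i.val]'(by omega)
  have ginj : Function.Injective g := by
    intro i j hij
    have := (List.Nodup.getElem_inj_iff hnd).mp hij
    exact Fin.ext this
  refine ⟨Equiv.ofBijective g (Finite.injective_iff_bijective.mp ginj), ?_⟩
  apply List.ext_getElem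
  · simp [hlen]
  · intro i h1 h2
    simp [g]

/-- Chobanyan's transference theorem. -/
theorem chobanyan {E : Type*} [NormedAddCommGroup E] [NormedSpace ℝ E] {N : ℕ} (v : Fin N → E)
    (hsum : ∑ i, v i = 0) (D : ℝ)
    (hD : ∀ π : Equiv.Perm (Fin N), ∃ s : Fin N → ℝ, (∀ i, s i = 1 ∨ s i = -1) ∧
      ∀ m : ℕ, m ≤ N →
        ‖∑ i ∈ Finset.univ.filter (fun i : Fin N => i.val < m), s i • v (π i)‖ ≤ D) :
    ∃ π : Equiv.Perm (Fin N), ∀ m : ℕ, m ≤ N →
      ‖∑ i ∈ Finset.univ.filter (fun i : Fin N => i.val < m), v (π i)‖ ≤ D := by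
  classical
  let g : Equiv.Perm (Fin N) → ℝ := fun π => (Finset.range (N + 1)).sup' ⟨0, by simp⟩
    (fun m => ‖∑ i ∈ Finset.univ.filter (fun i : Fin N => i.val < m), v (π i)‖)
  have hle : ∀ (π : Equiv.Perm (Fin N)) (m : ℕ), m ≤ N →
      ‖∑ i ∈ Finset.univ.filter (fun i : Fin N => i.val < m), v (π i)‖ ≤ g π := by
    intro π m hm
    exact Finset.le_sup' (fun m => ‖∑ i ∈ Finset.univ.filter (fun i : Fin N => i.val < m),
      v (π i)‖) (Finset.mem_range.mpr (by omega))
  obtain ⟨π₀, hπ₀⟩ := Finite.exists_min g
  refine ⟨π₀, fun m hm => (hle π₀ m hm).trans ?_⟩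
  obtain ⟨s, hs1, hs2⟩ := hD π₀
  set l := List.ofFn π₀ with hl
  have hlen : l.length = N := by simp [hl]
  let σ : Fin N → Bool := fun a => decide (s (π₀.symm a) = 1)
  let w : Fin N → E := fun a => s (π₀.symm a) • v a
  have hp : ∀ a, σ a = true → w a = v a := by
    intro a ha
    have : s (π₀.symm a) = 1 := by simpa [σ] using ha
    simp [w, this]
  have hm' : ∀ a, σ a = false → w a = -v a := by
    intro a ha
    have h1 : s (π₀.symm a) ≠ 1 := by simpa [σ] using ha
    have h2 : s (π₀.symm a) = -1 := (hs1 _).resolve_left h1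
    simp [w, h2]
  have hS : ∀ k, ((l.take k).map v).sum
      = ∑ i ∈ Finset.univ.filter (fun i : Fin N => i.val < k), v (π₀ i) := by
    intro k
    rw [List.map_take, hl, List.map_ofFn]
    exact sum_take_ofFn' _ k
  have hT : ∀ k, ((l.take k).map w).sum
      = ∑ i ∈ Finset.univ.filter (fun i : Fin N => i.val < k), s i • v (π₀ i) := by
    intro k
    rw [List.map_take, hl, List.map_ofFn]
    have : (w ∘ π₀) = fun i => s i • v (π₀ i) := by
      funext i
      simp [w]
    rw [this]
    exact sum_take_ofFn' _ k
  have hsum0 : (l.map v).sum = 0 := by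
    have h1 := hS N
    rw [List.take_of_length_le hlen.le] at h1
    rw [h1]
    have h2 : Finset.univ.filter (fun i : Fin N => i.val < N) = Finset.univ := by
      ext i
      simp
    rw [h2, Equiv.sum_comp π₀ v, hsum]
  set l' := l.filter σ ++ (l.filter (fun a => !σ a)).reverse with hl'
  have hperm : l'.Perm (List.ofFn (id : Fin N → Fin N)) := by
    have h1 : l'.Perm l := by
      rw [hl']
      refine (List.Perm.append_left _ (List.reverse_perm _)).trans ?_
      exact List.filter_append_perm σ l
    have h2 : l.Perm (List.ofFn (id : Fin N → Fin N)) := Equiv.Perm.ofFn_comp_perm π₀ id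
    exact h1.trans h2
  obtain ⟨π', hπ'⟩ := exists_perm_of_perm l' hperm
  have hnew : g π' ≤ (g π₀ + D) / 2 := by
    refine Finset.sup'_le _ _ fun m _ => ?_
    have h1 : ∑ i ∈ Finset.univ.filter (fun i : Fin N => i.val < m), v (π' i)
        = ((l'.take m).map v).sum := by
      rw [← hπ', List.map_take, List.map_ofFn]
      exact (sum_take_ofFn' _ m).symm
    rw [h1]
    refine flip_bound σ v w hp hm' l hsum0 (g π₀) D ?_ ?_ m
    · intro k hk
      rw [hS k]
      exact hle π₀ k (by omega)
    · intro k hk
      rw [hT k]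
      exact hs2 k (by omega)
  have := hπ₀ π'
  linarith

end Vale.Agent.Lib.P262.Ban
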