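import Mathlib

/-!
One-dimensional Gaussian estimates for intervals (helper96).
-/

namespace Vale.Agent.Lib.P262.Ban

open MeasureTheory ProbabilityTheory Set
open scoped ENNReal

/-- Shorthand for the normalising constant of the standard Gaussian. -/
private noncomputable def c0 : ℝ := (Real.sqrt (2 * Real.pi))⁻¹

private lemma pdf_eq (t : ℝ) : gaussianPDFReal 0 1 t = c0 * Real.exp (-(t ^ 2) / 2) := by
  simp [gaussianPDFReal, c0]

private lemma c0_pos : 0 < c0 := by
  unfold c0
  have := Real.pi_pos
  positivity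

private lemma c0_le : c0 ≤ 1 / 2 := by
  unfold c0
  rw [one_div]
  apply inv_anti₀ (by norm_num)
  have h : (2 : ℝ) = Real.sqrt (2 ^ 2) := by
    rw [Real.sqrt_sq (by norm_num)]
  rw [h]
  apply Real.sqrt_le_sqrt
  have := Real.pi_gt_three
  nlinarith

private lemma pdf_le_of_sq_le {s t : ℝ} (h : t ^ 2 ≤ s ^ 2) :
    gaussianPDFReal 0 1 s ≤ gaussianPDFReal 0 1 t := by
  rw [pdf_eq, pdf_eq]
  apply mul_le_mul_of_nonneg_left _ c0_pos.le
  apply Real.exp_le_exp.mpr
  linarith

private lemma pdf_intInt (x y : ℝ) : IntervalIntegrable (gaussianPDFReal 0 1) volume x y :=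
  (integrable_gaussianPDFReal 0 1).intervalIntegrable

private lemma mass_eq {a b : ℝ} (hab : a ≤ b) :
    (gaussianReal 0 1 (Icc a b)).toReal = ∫ t in a..b, gaussianPDFReal 0 1 t := by
  rw [gaussianReal_apply 0 one_ne_zero, intervalIntegral.integral_of_le hab,
    ← integral_Icc_eq_integral_Ioc]
  have h := ofReal_integral_eq_lintegral_ofReal
    ((integrable_gaussianPDFReal 0 1).restrict (s := Icc a b))
    (Filter.Eventually.of_forall fun t => gaussianPDFReal_nonneg 0 1 t)
  simp only [gaussianPDF]
  rw [← h, ENNReal.toReal_ofReal]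
  exact integral_nonneg fun t => gaussianPDFReal_nonneg 0 1 t

private lemma mass_le {x y c : ℝ} (hxy : x ≤ y) (h : ∀ t ∈ Icc x y, gaussianPDFReal 0 1 t ≤ c) :
    ∫ t in x..y, gaussianPDFReal 0 1 t ≤ c * (y - x) := by
  have := intervalIntegral.integral_mono_on hxy (pdf_intInt x y)
    (intervalIntegrable_const (c := c)) h
  simpa [mul_comm] using this

private lemma le_mass {x y c : ℝ} (hxy : x ≤ y) (h : ∀ t ∈ Icc x y, c ≤ gaussianPDFReal 0 1 t) :
    c * (y - x) ≤ ∫ t in x..y, gaussianPDFReal 0 1 t := by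
  have := intervalIntegral.integral_mono_on hxy
    (intervalIntegrable_const (c := c)) (pdf_intInt x y) h
  simpa [mul_comm] using this

/-- A bounded-density estimate: an interval of length `b - a` has Gaussian mass at most
`(b - a) / 2`. -/
theorem gauss_Icc_le (a b : ℝ) (hab : a ≤ b) :
    gaussianReal 0 1 (Icc a b) ≤ ENNReal.ofReal ((b - a) / 2) := by
  have h1 : (gaussianReal 0 1 (Icc a b)).toReal ≤ (b - a) / 2 := by
    rw [mass_eq hab]
    have := mass_le (c := 1 / 2) hab (fun t _ => by
      rw [pdf_eq]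
      have h2 : Real.exp (-(t ^ 2) / 2) ≤ 1 := by
        apply Real.exp_le_one_iff.mpr
        have := sq_nonneg t
        linarith
      have h3 := c0_le
      have h4 := c0_pos
      nlinarith [Real.exp_pos (-(t ^ 2) / 2)])
    linarith
  rw [← ENNReal.ofReal_toReal (measure_ne_top (gaussianReal 0 1) (Icc a b))]
  exact ENNReal.ofReal_le_ofReal h1

/-- The exact estimate: thickening an interval of length `l` (with `2 ρ ≤ l ≤ 1`, `ρ ≤ 1 / 500`)
by `ρ` on both sides multiplies its Gaussian mass by at least `1 + ρ / l`. -/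
theorem fiber_ineq (a b ρ : ℝ) (hρ : 0 < ρ) (hρ' : ρ ≤ 1 / 500) (h1 : 2 * ρ ≤ b - a)
    (h2 : b - a ≤ 1) :
    (1 + ρ / (b - a)) * (gaussianReal 0 1 (Icc a b)).toReal ≤
      (gaussianReal 0 1 (Icc (a - ρ) (b + ρ))).toReal := by
  have hl : 0 < b - a := by linarith
  have hab : a ≤ b := by linarith
  rw [mass_eq hab, mass_eq (by linarith)]
  have hsplit : ∫ t in (a - ρ)..(b + ρ), gaussianPDFReal 0 1 t =
      (∫ t in (a - ρ)..a, gaussianPDFReal 0 1 t) + (∫ t in a..b, gaussianPDFReal 0 1 t) +
        ∫ t in b..(b + ρ), gaussianPDFReal 0 1 t := by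
    rw [intervalIntegral.integral_add_adjacent_intervals (pdf_intInt _ _) (pdf_intInt _ _),
      intervalIntegral.integral_add_adjacent_intervals (pdf_intInt _ _) (pdf_intInt _ _)]
  rw [hsplit]
  set L := ∫ t in (a - ρ)..a, gaussianPDFReal 0 1 t with hL
  set M := ∫ t in a..b, gaussianPDFReal 0 1 t with hM
  set R := ∫ t in b..(b + ρ), gaussianPDFReal 0 1 t with hR
  have hLnn : 0 ≤ L := intervalIntegral.integral_nonneg (by linarith)
    (fun t _ => gaussianPDFReal_nonneg 0 1 t)
  have hRnn : 0 ≤ R := intervalIntegral.integral_nonneg (by linarith)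
    (fun t _ => gaussianPDFReal_nonneg 0 1 t)
  have hgoal : ∀ m : ℝ, M ≤ m * (b - a) → ρ * m ≤ L + R →
      (1 + ρ / (b - a)) * M ≤ L + M + R := by
    intro m hm hside
    have h3 : ρ / (b - a) * M ≤ ρ * m := by
      have h4 : ρ / (b - a) * M ≤ ρ / (b - a) * (m * (b - a)) :=
        mul_le_mul_of_nonneg_left hm (by positivity)
      have h5 : ρ / (b - a) * (m * (b - a)) = ρ * m := by
        field_simp
      linarith
    have : (1 + ρ / (b - a)) * M = M + ρ / (b - a) * M := by ring
    linarith
  by_cases hc1 : ρ ≤ a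
  · -- the whole picture lies to the right of the origin
    refine hgoal (gaussianPDFReal 0 1 a) (mass_le hab ?_) ?_
    · rintro t ⟨ht1, -⟩
      exact pdf_le_of_sq_le (pow_le_pow_left₀ (by linarith) ht1 2)
    · have : ρ * gaussianPDFReal 0 1 a ≤ L := by
        have h := le_mass (c := gaussianPDFReal 0 1 a) (x := a - ρ) (y := a) (by linarith)
          (fun t ht => pdf_le_of_sq_le (pow_le_pow_left₀ (by linarith [ht.1]) ht.2 2))
        have h6 : a - (a - ρ) = ρ := by ring
        rw [h6] at h
        linarith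
      linarith
  by_cases hc2 : b ≤ -ρ
  · refine hgoal (gaussianPDFReal 0 1 b) (mass_le hab ?_) ?_
    · rintro t ⟨-, ht2⟩
      apply pdf_le_of_sq_le
      nlinarith
    · have : ρ * gaussianPDFReal 0 1 b ≤ R := by
        have h := le_mass (c := gaussianPDFReal 0 1 b) (x := b) (y := b + ρ) (by linarith)
          (fun t ht => by
            apply pdf_le_of_sq_le
            nlinarith [ht.1, ht.2])
        have h6 : b + ρ - b = ρ := by ring
        rw [h6] at h
        linarith
      linarith
  push Not at hc1 hc2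
  -- the central case
  refine hgoal c0 (mass_le hab ?_) ?_
  · intro t _
    rw [pdf_eq]
    have h2 : Real.exp (-(t ^ 2) / 2) ≤ 1 := by
      apply Real.exp_le_one_iff.mpr
      have := sq_nonneg t
      linarith
    have h4 := c0_pos
    nlinarith
  · have hlow : ∀ t : ℝ, |t| ≤ 1 + 2 * ρ → c0 / 2 ≤ gaussianPDFReal 0 1 t := by
      intro t ht
      rw [pdf_eq]
      have hsq : t ^ 2 ≤ (1 + 2 / 500) ^ 2 := by
        have : |t| ≤ 1 + 2 / 500 := by linarith
        rw [← sq_abs t]
        exact pow_le_pow_left₀ (abs_nonneg t) this 2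
      have hexp : (1 / 2 : ℝ) ≤ Real.exp (-(t ^ 2) / 2) := by
        have h5 : -(t ^ 2) / 2 = -(t ^ 2) / 4 + -(t ^ 2) / 4 := by ring
        rw [h5, Real.exp_add]
        have h6 : 1 + (-(t ^ 2) / 4) ≤ Real.exp (-(t ^ 2) / 4) := by
          have := Real.add_one_le_exp (-(t ^ 2) / 4)
          linarith
        have h7 : (0.7 : ℝ) ≤ 1 + (-(t ^ 2) / 4) := by
          norm_num at hsq ⊢
          linarith
        have h8 : (0.7 : ℝ) ≤ Real.exp (-(t ^ 2) / 4) := by linarith
        nlinarith
      have h4 := c0_pos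
      nlinarith
    have hLb : ρ * (c0 / 2) ≤ L := by
      have h := le_mass (c := c0 / 2) (x := a - ρ) (y := a) (by linarith)
        (fun t ht => hlow t (by
          rw [abs_le]
          constructor <;> linarith [ht.1, ht.2]))
      have h6 : a - (a - ρ) = ρ := by ring
      rw [h6] at h
      linarith
    have hRb : ρ * (c0 / 2) ≤ R := by
      have h := le_mass (c := c0 / 2) (x := b) (y := b + ρ) (by linarith)
        (fun t ht => hlow t (by
          rw [abs_le]
          constructor <;> linarith [ht.1, ht.2]))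
      have h6 : b + ρ - b = ρ := by ring
      rw [h6] at h
      linarith
    nlinarith

end Vale.Agent.Lib.P262.Ban
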