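import Vale.Agent.Lib.P262.Ban.Defs

/-!
Basic properties of the star body `K * u` (helper96).
-/

namespace Vale.Agent.Lib.P262.Ban

open Set

/-- The star body of a convex set is convex. -/
theorem star_convex {E : Type*} [AddCommGroup E] [Module ℝ E] {K : Set E} (hK : Convex ℝ K)
    (u : E) : Convex ℝ (star K u) := by
  rintro x ⟨p, τ, s, hp, hτ, hq, hs1, hs2, rfl⟩ y ⟨p', τ', s', hp', hτ', hq', hs1', hs2', rfl⟩
    a b ha hb hab
  refine ⟨a • p + b • p', a * τ + b * τ', a * s + b * s', hK hp hp' ha hb hab, ?_, ?_, ?_, ?_, ?_⟩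
  · have : a * 2 + b * 2 ≤ a * τ + b * τ' := by
      have h1 := mul_le_mul_of_nonneg_left hτ ha
      have h2 := mul_le_mul_of_nonneg_left hτ' hb
      linarith
    have h3 : a * 2 + b * 2 = 2 := by rw [← add_mul, hab, one_mul]
    linarith
  · have h := hK hq hq' ha hb hab
    convert h using 1
    simp only [smul_add, add_smul, mul_smul]
    abel
  · have h1 := mul_le_mul_of_nonneg_left hs1 ha
    have h2 := mul_le_mul_of_nonneg_left hs1' hb
    have h3 : a * (-1) + b * (-1) = -1 := by rw [← add_mul, hab, one_mul]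
    linarith
  · have h1 := mul_le_mul_of_nonneg_left hs2 ha
    have h2 := mul_le_mul_of_nonneg_left hs2' hb
    have h3 : a * 1 + b * 1 = 1 := by rw [← add_mul, hab, one_mul]
    nlinarith
  · simp only [smul_add, add_smul, mul_smul]
    abel

/-- The walking step: a point of the star body moves into `K` by adding or subtracting `u`. -/
theorem star_step {E : Type*} [AddCommGroup E] [Module ℝ E] {K : Set E} (hK : Convex ℝ K)
    {u x : E} (hx : x ∈ star K u) : x + u ∈ K ∨ x - u ∈ K := by
  obtain ⟨p, τ, s, hp, hτ, hq, hs1, hs2, rfl⟩ := hx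
  have key : ∀ r : ℝ, 0 ≤ r → r ≤ τ → p + r • u ∈ K := by
    intro r hr0 hr1
    have hτ0 : 0 < τ := by linarith
    have h := hK hp hq (a := 1 - r / τ) (b := r / τ)
      (by rw [sub_nonneg, div_le_one hτ0]; exact hr1) (by positivity) (by ring)
    convert h using 1
    simp only [smul_add, smul_smul, sub_smul, one_smul]
    have : r / τ * τ = r := by field_simp
    rw [this]
    abel
  by_cases h : s ≤ τ - 1
  · left
    have := key (s + 1) (by linarith) (by linarith)
    convert this using 1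
    rw [add_smul, one_smul]
    abel
  · right
    push Not at h
    have := key (s - 1) (by linarith) (by linarith)
    convert this using 1
    rw [sub_smul, one_smul]
    abel

/-- The star body of a compact set is compact. -/
theorem star_isCompact {E : Type*} [NormedAddCommGroup E] [NormedSpace ℝ E] {K : Set E}
    (hK : IsCompact K) (u : E) : IsCompact (star K u) := by
  by_cases hu : u = 0
  · subst hu
    have : star K (0 : E) = K := by
      ext x
      constructor
      · rintro ⟨p, τ, s, hp, -, -, -, -, rfl⟩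
        simpa using hp
      · intro hx
        exact ⟨x, 2, 0, hx, le_refl _, by simpa using hx, by norm_num, by norm_num, by simp⟩
    rw [this]
    exact hK
  obtain ⟨M, hM⟩ := hK.isBounded.exists_norm_le
  have hupos : 0 < ‖u‖ := norm_pos_iff.mpr hu
  set T : ℝ := max 2 (2 * M / ‖u‖) with hT
  have hC : IsCompact (K ×ˢ (Icc (2 : ℝ) T ×ˢ Icc (-1 : ℝ) (T + 1))) :=
    hK.prod (isCompact_Icc.prod isCompact_Icc)
  have hcl1 : IsClosed {q : E × ℝ × ℝ | q.1 + q.2.1 • u ∈ K} :=
    hK.isClosed.preimage (by fun_prop)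
  have hcl2 : IsClosed {q : E × ℝ × ℝ | q.2.2 ≤ q.2.1 + 1} :=
    isClosed_le (by fun_prop) (by fun_prop)
  have hS := (hC.inter_right hcl1).inter_right hcl2
  have himg := hS.image (f := fun q : E × ℝ × ℝ => q.1 + q.2.2 • u) (by fun_prop)
  convert himg using 1
  ext x
  constructor
  · rintro ⟨p, τ, s, hp, hτ, hq, hs1, hs2, rfl⟩
    have hτT : τ ≤ T := by
      have h1 : τ * ‖u‖ ≤ 2 * M := by
        have h2 : ‖τ • u‖ ≤ ‖p + τ • u‖ + ‖p‖ := by
          calc ‖τ • u‖ = ‖(p + τ • u) - p‖ := by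
                congr 1
                abel
            _ ≤ ‖p + τ • u‖ + ‖p‖ := norm_sub_le _ _
        rw [norm_smul, Real.norm_eq_abs, abs_of_nonneg (by linarith)] at h2
        have h3 := hM _ hq
        have h4 := hM _ hp
        linarith
      have h5 : τ ≤ 2 * M / ‖u‖ := by
        rw [le_div_iff₀ hupos]
        exact h1
      exact h5.trans (le_max_right _ _)
    refine ⟨(p, τ, s), ⟨⟨⟨hp, ⟨hτ, hτT⟩, ⟨hs1, by linarith⟩⟩, hq⟩, hs2⟩, rfl⟩
  · rintro ⟨⟨p, τ, s⟩, ⟨⟨⟨hp, ⟨hτ, -⟩, ⟨hs1, -⟩⟩, hq⟩, hs2⟩, rfl⟩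
    exact ⟨p, τ, s, hp, hτ, hq, hs1, hs2, rfl⟩

end Vale.Agent.Lib.P262.Ban
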