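import Vale.Agent.Lib.P262.Ban.Defs
import Vale.Agent.Lib.P262.Ban.Fiber

/-!
The star inequality in coordinates `ℝ × Y` with the direction along the first factor (helper10).
-/

namespace Vale.Agent.Lib.P262.Ban

open MeasureTheory ProbabilityTheory Set
open scoped ENNReal

/-- The arithmetic behind the star inequality. -/
theorem star_numbers (h : ℕ → ℝ) (g ρ : ℝ) (hρ0 : 0 < ρ) (hρ : ρ ≤ 1 / 500)
    (hanti : ∀ j, h (j + 1) ≤ h j)
    (hlc : ∀ j, h j * h (j + 2) ≤ h (j + 1) ^ 2)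
    (h0 : 1 / 2 ≤ h 0)
    (hdrop : ∀ j : ℕ, h 0 ≤ h j + ρ * j)
    (hg : h 1 + ∑ j ∈ Finset.range 11, (1 / (2 * ((j : ℝ) + 2))) * h (j + 1)
        ≤ g + ∑ j ∈ Finset.range 11, (1 / (2 * ((j : ℝ) + 2))) * h (j + 2)) :
    h 0 ≤ g := by
  have hpos : ∀ j : ℕ, j ≤ 12 → 0 < h j := by
    intro j hj
    have h1 := hdrop j
    have h2 : ρ * j ≤ (1 / 500) * 12 := by
      have : (j : ℝ) ≤ 12 := by exact_mod_cast hj
      have hj0 : (0 : ℝ) ≤ j := by positivity
      nlinarith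
    linarith
  have hh0 : 0 < h 0 := by linarith
  have hratio : ∀ j : ℕ, j ≤ 11 → h (j + 1) * h 0 ≤ h 1 * h j := by
    intro j
    induction j with
    | zero => intro _; simp
    | succ j ih =>
      intro hj
      have ih' := ih (by omega)
      have hjpos := hpos j (by omega)
      have hj1pos := hpos (j + 1) (by omega)
      have hl := hlc j
      have h1pos := hpos 1 (by norm_num)
      have key : h j * (h (j + 2) * h 0) ≤ h j * (h 1 * h (j + 1)) := by
        have e1 : h j * (h (j + 2) * h 0) = (h j * h (j + 2)) * h 0 := by ring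
        have e2 : h j * (h 1 * h (j + 1)) = h (j + 1) * (h 1 * h j) := by ring
        rw [e1, e2]
        calc (h j * h (j + 2)) * h 0 ≤ h (j + 1) ^ 2 * h 0 := by gcongr
          _ = h (j + 1) * (h (j + 1) * h 0) := by ring
          _ ≤ h (j + 1) * (h 1 * h j) := by gcongr
      exact le_of_mul_le_mul_left key hjpos
  set c := h 0 - h 1 with hc
  have hc0 : 0 ≤ c := by have := hanti 0; simp only [zero_add] at this; linarith
  have hstep : ∀ j ∈ Finset.range 11,
      c * (1 - 2 * ρ * ((j : ℝ) + 1)) ≤ h (j + 1) - h (j + 2) := by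
    intro j hj
    have hj' : j < 11 := Finset.mem_range.mp hj
    have hr := hratio (j + 1) (by omega)
    have hd := hdrop (j + 1)
    push_cast at hd
    have hjpos := hpos (j + 1) (by omega)
    have hjr : (0 : ℝ) ≤ (j : ℝ) + 1 := by positivity
    have : (h (j + 1) - h (j + 2)) * h 0 ≥ c * (1 - 2 * ρ * ((j : ℝ) + 1)) * h 0 := by
      have e : (h (j + 1) - h (j + 2)) * h 0 ≥ h (j + 1) * c := by
        have : h (j + 1 + 1) * h 0 ≤ h 1 * h (j + 1) := hr
        rw [hc]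
        nlinarith
      have e2 : h (j + 1) * c ≥ c * (1 - 2 * ρ * ((j : ℝ) + 1)) * h 0 := by
        have : h (j + 1) ≥ (1 - 2 * ρ * ((j : ℝ) + 1)) * h 0 := by
          have hρj : 0 ≤ ρ * ((j : ℝ) + 1) := by positivity
          nlinarith
        nlinarith
      linarith
    exact le_of_mul_le_mul_right this hh0
  have hsum : c ≤ ∑ j ∈ Finset.range 11, (1 / (2 * ((j : ℝ) + 2))) * (h (j + 1) - h (j + 2)) := by
    have h1 : ∑ j ∈ Finset.range 11, (1 / (2 * ((j : ℝ) + 2))) * (c * (1 - 2 * ρ * ((j : ℝ) + 1)))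
        ≤ ∑ j ∈ Finset.range 11, (1 / (2 * ((j : ℝ) + 2))) * (h (j + 1) - h (j + 2)) := by
      apply Finset.sum_le_sum
      intro j hj
      apply mul_le_mul_of_nonneg_left (hstep j hj)
      positivity
    have h2 : c ≤ ∑ j ∈ Finset.range 11, (1 / (2 * ((j : ℝ) + 2))) * (c * (1 - 2 * ρ * ((j : ℝ) + 1))) := by
      have e : ∑ j ∈ Finset.range 11, (1 / (2 * ((j : ℝ) + 2))) * (c * (1 - 2 * ρ * ((j : ℝ) + 1)))
          = c * ∑ j ∈ Finset.range 11, (1 / (2 * ((j : ℝ) + 2))) * (1 - 2 * ρ * ((j : ℝ) + 1)) := by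
        rw [Finset.mul_sum]
        apply Finset.sum_congr rfl
        intro j _
        ring
      rw [e]
      have h3 : (1 : ℝ) ≤ ∑ j ∈ Finset.range 11, (1 / (2 * ((j : ℝ) + 2))) * (1 - 2 * ρ * ((j : ℝ) + 1)) := by
        have h4 : ∀ j ∈ Finset.range 11, (1 / (2 * ((j : ℝ) + 2))) * (1 - 2 * (1 / 500) * ((j : ℝ) + 1))
            ≤ (1 / (2 * ((j : ℝ) + 2))) * (1 - 2 * ρ * ((j : ℝ) + 1)) := by
          intro j _
          apply mul_le_mul_of_nonneg_left _ (by positivity)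
          have hjr : (0 : ℝ) ≤ (j : ℝ) + 1 := by positivity
          nlinarith
        refine le_trans ?_ (Finset.sum_le_sum h4)
        norm_num [Finset.sum_range_succ]
      nlinarith
    linarith
  have e : ∑ j ∈ Finset.range 11, (1 / (2 * ((j : ℝ) + 2))) * (h (j + 1) - h (j + 2))
      = ∑ j ∈ Finset.range 11, (1 / (2 * ((j : ℝ) + 2))) * h (j + 1)
        - ∑ j ∈ Finset.range 11, (1 / (2 * ((j : ℝ) + 2))) * h (j + 2) := by
    rw [← Finset.sum_sub_distrib]
    apply Finset.sum_congr rfl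
    intro j _
    ring
  rw [e] at hsum
  linarith

/-- Sum comparison behind the pointwise inequality. -/
lemma sum_shift (W : ℕ → ℝ≥0∞) (q : ℝ≥0∞) (j₀ : ℕ) (hj₀ : 1 ≤ j₀) (J : ℕ) :
    ∑ j ∈ Finset.range J, W j * (if j + 1 ≤ j₀ then q else 0)
      ≤ ∑ j ∈ Finset.range J, W j * (if j + 2 ≤ j₀ then q else 0)
        + (if j₀ ≤ J then W (j₀ - 1) * q else 0) := by
  induction J with
  | zero =>
    simp
  | succ J ih =>
    rw [Finset.sum_range_succ, Finset.sum_range_succ]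
    by_cases h1 : J + 2 ≤ j₀
    · have h2 : J + 1 ≤ j₀ := by omega
      have h3 : ¬ j₀ ≤ J := by omega
      have h4 : ¬ j₀ ≤ J + 1 := by omega
      simp only [h1, h2, h3, h4, if_true, if_false, add_zero] at ih ⊢
      gcongr
    · by_cases h2 : J + 1 ≤ j₀
      · have h3 : j₀ = J + 1 := by omega
        subst h3
        have h5 : ¬ J + 1 ≤ J := by omega
        simp only [h1, h5, le_refl, if_true, if_false, add_zero, mul_zero, add_tsub_cancel_right] at ih ⊢
        gcongr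
      · have h3 : j₀ ≤ J := by omega
        have h4 : j₀ ≤ J + 1 := by omega
        simp only [h1, h2, h3, h4, if_true, if_false, mul_zero, add_zero] at ih ⊢
        exact ih

variable {Y : Type*} [NormedAddCommGroup Y] [NormedSpace ℝ Y]

/-- The base points of the chords of `K` of length at least `L`. -/
def chord (K : Set (ℝ × Y)) (L : ℝ) : Set Y :=
  {y | ∃ a b : ℝ, (a, y) ∈ K ∧ (b, y) ∈ K ∧ L ≤ b - a}

/-- The part of `K` lying in chords of length at least `L`. -/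
def trunc (K : Set (ℝ × Y)) (L : ℝ) : Set (ℝ × Y) :=
  {x | x ∈ K ∧ x.2 ∈ chord K L}

lemma chord_isClosed {K : Set (ℝ × Y)} (hK : IsCompact K) (L : ℝ) : IsClosed (chord K L) := by
  have h1 : IsClosed {z : (ℝ × Y) × (ℝ × Y) | z.1.2 = z.2.2 ∧ L ≤ z.2.1 - z.1.1} :=
    (isClosed_eq (f := fun z : (ℝ × Y) × (ℝ × Y) => z.1.2) (g := fun z => z.2.2)
      (by fun_prop) (by fun_prop)).inter
      (isClosed_le (f := fun _ : (ℝ × Y) × (ℝ × Y) => L) (g := fun z => z.2.1 - z.1.1)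
      (by fun_prop) (by fun_prop))
  have h2 : IsCompact ((K ×ˢ K) ∩ {z : (ℝ × Y) × (ℝ × Y) | z.1.2 = z.2.2 ∧ L ≤ z.2.1 - z.1.1}) :=
    (hK.prod hK).inter_right h1
  have h3 : IsCompact ((fun z : (ℝ × Y) × (ℝ × Y) => z.1.2) ''
      ((K ×ˢ K) ∩ {z : (ℝ × Y) × (ℝ × Y) | z.1.2 = z.2.2 ∧ L ≤ z.2.1 - z.1.1})) :=
    h2.image (by fun_prop)
  convert h3.isClosed using 1
  ext y
  constructor
  · rintro ⟨a, b, ha, hb, hL⟩
    exact ⟨((a, y), (b, y)), ⟨⟨ha, hb⟩, rfl, hL⟩, rfl⟩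
  · rintro ⟨⟨⟨a, y₁⟩, ⟨b, y₂⟩⟩, ⟨⟨ha, hb⟩, h12, hL⟩, rfl⟩
    simp only at h12 hL ⊢
    subst h12
    exact ⟨a, b, ha, hb, hL⟩

lemma trunc_isClosed {K : Set (ℝ × Y)} (hK : IsCompact K) (L : ℝ) : IsClosed (trunc K L) :=
  hK.isClosed.inter ((chord_isClosed hK L).preimage continuous_snd)

lemma trunc_zero (K : Set (ℝ × Y)) : trunc K 0 = K := by
  ext ⟨t, y⟩
  constructor
  · exact fun h => h.1
  · intro h
    exact ⟨h, t, t, h, h, by simp⟩

lemma chord_anti {K : Set (ℝ × Y)} {L₁ L₂ : ℝ} (h : L₁ ≤ L₂) : chord K L₂ ⊆ chord K L₁ := by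
  rintro y ⟨a, b, ha, hb, hL⟩
  exact ⟨a, b, ha, hb, h.trans hL⟩

lemma trunc_anti {K : Set (ℝ × Y)} {L₁ L₂ : ℝ} (h : L₁ ≤ L₂) : trunc K L₂ ⊆ trunc K L₁ :=
  fun _ hx => ⟨hx.1, chord_anti h hx.2⟩

lemma mid_mem {E : Type*} [AddCommGroup E] [Module ℝ E] {K : Set E} (hc : Convex ℝ K) {p q : E}
    (hp : p ∈ K) (hq : q ∈ K) : (1 / 2 : ℝ) • (p + q) ∈ K := by
  have := hc hp hq (by norm_num : (0 : ℝ) ≤ 1 / 2) (by norm_num : (0 : ℝ) ≤ 1 / 2) (by norm_num)
  rwa [← smul_add] at this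

lemma trunc_mid {K : Set (ℝ × Y)} (hc : Convex ℝ K) {L₁ L₂ : ℝ} {x x' : ℝ × Y}
    (hx : x ∈ trunc K L₁) (hx' : x' ∈ trunc K L₂) :
    (1 / 2 : ℝ) • (x + x') ∈ trunc K ((L₁ + L₂) / 2) := by
  obtain ⟨hxK, a, b, ha, hb, hL⟩ := hx
  obtain ⟨hxK', a', b', ha', hb', hL'⟩ := hx'
  refine ⟨mid_mem hc hxK hxK', (a + a') / 2, (b + b') / 2, ?_, ?_, ?_⟩
  · have := mid_mem hc ha ha'
    convert this using 1
    ext <;> simp <;> ring
  · have := mid_mem hc hb hb'
    convert this using 1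
    ext <;> simp <;> ring
  · linarith

/-- The section of `K` over `y`. -/
def sec (K : Set (ℝ × Y)) (y : Y) : Set ℝ := {t | (t, y) ∈ K}

lemma sec_isCompact {K : Set (ℝ × Y)} (hK : IsCompact K) (y : Y) : IsCompact (sec K y) := by
  have h1 : IsCompact (Prod.fst '' (K ∩ Prod.snd ⁻¹' {y})) :=
    (hK.inter_right (isClosed_singleton.preimage continuous_snd)).image continuous_fst
  convert h1 using 1
  ext t
  constructor
  · intro h
    exact ⟨(t, y), ⟨h, rfl⟩, rfl⟩
  · rintro ⟨⟨t', y'⟩, ⟨h, hy⟩, rfl⟩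
    simp only [mem_preimage, mem_singleton_iff] at hy
    subst hy
    exact h

lemma sec_convex {K : Set (ℝ × Y)} (hc : Convex ℝ K) (y : Y) : Convex ℝ (sec K y) := by
  intro s hs t ht α β hα hβ hαβ
  have := hc hs ht hα hβ hαβ
  show (α • s + β • t, y) ∈ K
  convert this using 1
  ext
  · simp
  · simp [← add_smul, hαβ]

lemma sec_eq_Icc {K : Set (ℝ × Y)} (hK : IsCompact K) (hc : Convex ℝ K) {y : Y}
    (hne : (sec K y).Nonempty) : ∃ a b : ℝ, a ≤ b ∧ sec K y = Icc a b := by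
  have h1 := eq_Icc_of_connected_compact ⟨hne, (sec_convex hc y).isPreconnected⟩ (sec_isCompact hK y)
  refine ⟨_, _, ?_, h1⟩
  exact csInf_le_csSup hne (sec_isCompact hK y).bddBelow (sec_isCompact hK y).bddAbove

lemma mem_chord_iff {K : Set (ℝ × Y)} {y : Y} {a b : ℝ} (hab : a ≤ b) (h : sec K y = Icc a b)
    (L : ℝ) : y ∈ chord K L ↔ L ≤ b - a := by
  constructor
  · rintro ⟨a', b', ha', hb', hL⟩
    have h1 : a' ∈ Icc a b := h ▸ ha'
    have h2 : b' ∈ Icc a b := h ▸ hb'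
    linarith [h1.1, h2.2]
  · intro hL
    have h1 : a ∈ sec K y := h ▸ left_mem_Icc.mpr hab
    have h2 : b ∈ sec K y := h ▸ right_mem_Icc.mpr hab
    exact ⟨a, b, h1, h2, hL⟩

lemma slice_trunc_of_mem (K : Set (ℝ × Y)) {L : ℝ} {y : Y} (h : y ∈ chord K L) :
    (fun t : ℝ => (t, y)) ⁻¹' trunc K L = sec K y := by
  ext t
  exact ⟨fun ht => ht.1, fun ht => ⟨ht, h⟩⟩

lemma slice_trunc_of_notMem (K : Set (ℝ × Y)) {L : ℝ} {y : Y} (h : y ∉ chord K L) :
    (fun t : ℝ => (t, y)) ⁻¹' trunc K L = ∅ := by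
  ext t
  simp only [mem_preimage, mem_empty_iff_false, iff_false]
  exact fun ht => h ht.2

lemma Icc_subset_star {K : Set (ℝ × Y)} {y : Y} {a b ρ : ℝ} (hρ : 0 < ρ) (hL : 2 * ρ ≤ b - a)
    (ha : (a, y) ∈ K) (hb : (b, y) ∈ K) :
    Icc (a - ρ) (b + ρ) ⊆ {t | (t, y) ∈ star K ((ρ, 0) : ℝ × Y)} := by
  intro t ht
  refine ⟨(a, y), (b - a) / ρ, (t - a) / ρ, ha, ?_, ?_, ?_, ?_, ?_⟩
  · rw [le_div_iff₀ hρ]; linarith
  · convert hb using 1
    ext
    · simp; field_simp; ring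
    · simp
  · rw [le_div_iff₀ hρ]; linarith [ht.1]
  · rw [div_add_one hρ.ne', div_le_div_iff_of_pos_right hρ]; linarith [ht.2]
  · ext
    · simp; field_simp; ring
    · simp

/-- The pointwise inequality between sections. -/
lemma pointwise {K : Set (ℝ × Y)} (hK : IsCompact K) (hc : Convex ℝ K) {ρ : ℝ} (hρ : 0 < ρ)
    (hρ' : ρ ≤ 1 / 500) (y : Y) :
    gaussianReal 0 1 ((fun t : ℝ => (t, y)) ⁻¹' trunc K (2 * ρ * ((1 : ℕ) : ℝ)))
      + ∑ j ∈ Finset.range 11, ENNReal.ofReal (1 / (2 * ((j : ℝ) + 2))) *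
          gaussianReal 0 1 ((fun t : ℝ => (t, y)) ⁻¹' trunc K (2 * ρ * ((j + 1 : ℕ) : ℝ)))
    ≤ gaussianReal 0 1 ((fun t : ℝ => (t, y)) ⁻¹' star K ((ρ, 0) : ℝ × Y))
      + ∑ j ∈ Finset.range 11, ENNReal.ofReal (1 / (2 * ((j : ℝ) + 2))) *
          gaussianReal 0 1 ((fun t : ℝ => (t, y)) ⁻¹' trunc K (2 * ρ * ((j + 2 : ℕ) : ℝ))) := by
  by_cases hy : y ∈ chord K (2 * ρ * ((1 : ℕ) : ℝ))
  · obtain ⟨a', b', ha', hb', hL'⟩ := hy
    have hne : (sec K y).Nonempty := ⟨a', ha'⟩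
    obtain ⟨a, b, hab, hsec⟩ := sec_eq_Icc hK hc hne
    have hchord := fun L => mem_chord_iff (K := K) hab hsec L
    have hy1 : y ∈ chord K (2 * ρ * ((1 : ℕ) : ℝ)) := ⟨a', b', ha', hb', hL'⟩
    have hL : 2 * ρ ≤ b - a := by
      have := (hchord _).mp hy1
      simpa using this
    have ha : (a, y) ∈ K := by
      have : a ∈ sec K y := hsec ▸ left_mem_Icc.mpr hab
      exact this
    have hb : (b, y) ∈ K := by
      have : b ∈ sec K y := hsec ▸ right_mem_Icc.mpr hab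
      exact this
    have h2ρ : 0 < 2 * ρ := by positivity
    set j₀ : ℕ := ⌊(b - a) / (2 * ρ)⌋₊ with hj₀def
    have hquot : 0 ≤ (b - a) / (2 * ρ) := div_nonneg (by linarith) h2ρ.le
    have hj₀ : 1 ≤ j₀ := by
      apply Nat.le_floor
      simp only [Nat.cast_one]
      rw [le_div_iff₀ h2ρ]
      linarith
    have hiff : ∀ j : ℕ, y ∈ chord K (2 * ρ * (j : ℝ)) ↔ j ≤ j₀ := by
      intro j
      rw [hchord, hj₀def, Nat.le_floor_iff hquot, le_div_iff₀ h2ρ]
      constructor <;> intro h <;> linarith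
    set q := gaussianReal 0 1 (Icc a b) with hq
    have hF : ∀ j : ℕ, gaussianReal 0 1 ((fun t : ℝ => (t, y)) ⁻¹' trunc K (2 * ρ * (j : ℝ)))
        = if j ≤ j₀ then q else 0 := by
      intro j
      by_cases hj : j ≤ j₀
      · rw [if_pos hj, slice_trunc_of_mem K ((hiff j).mpr hj), hsec]
      · rw [if_neg hj, slice_trunc_of_notMem K (fun h => hj ((hiff j).mp h))]
        simp
    have hIcc : Icc (a - ρ) (b + ρ) ⊆ (fun t : ℝ => (t, y)) ⁻¹' star K ((ρ, 0) : ℝ × Y) :=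
      Icc_subset_star hρ hL ha hb
    set G := gaussianReal 0 1 ((fun t : ℝ => (t, y)) ⁻¹' star K ((ρ, 0) : ℝ × Y)) with hG
    have hqG : gaussianReal 0 1 (Icc (a - ρ) (b + ρ)) ≤ G := measure_mono hIcc
    have hq1 : q ≤ G := by
      refine le_trans (measure_mono ?_) hqG
      exact Icc_subset_Icc (by linarith) (by linarith)
    have hE : q + (if j₀ ≤ 11 then ENNReal.ofReal (1 / (2 * (((j₀ - 1 : ℕ) : ℝ) + 2))) * q else 0) ≤ G := by
      by_cases hj : j₀ ≤ 11
      · rw [if_pos hj]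
        have hlt : (b - a) / (2 * ρ) < (j₀ : ℝ) + 1 := Nat.lt_floor_add_one _
        rw [div_lt_iff₀ h2ρ] at hlt
        have hj' : (j₀ : ℝ) ≤ 11 := by exact_mod_cast hj
        have hj1 : (1 : ℝ) ≤ j₀ := by exact_mod_cast hj₀
        have hle1 : b - a ≤ 1 := by nlinarith
        have hfib := fiber_ineq a b ρ hρ hρ' hL hle1
        have hqtop : q ≠ ⊤ := measure_ne_top _ _
        have hGtop : G ≠ ⊤ := measure_ne_top _ _
        have hw : 1 / (2 * (((j₀ - 1 : ℕ) : ℝ) + 2)) ≤ ρ / (b - a) := by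
          rw [Nat.cast_sub hj₀, Nat.cast_one, div_le_div_iff₀ (by positivity) (by linarith)]
          nlinarith
        have hwpos : 0 ≤ 1 / (2 * (((j₀ - 1 : ℕ) : ℝ) + 2)) := by positivity
        have hq0 : 0 ≤ q.toReal := ENNReal.toReal_nonneg
        have hmono := ENNReal.toReal_mono hGtop hqG
        have e : q + ENNReal.ofReal (1 / (2 * (((j₀ - 1 : ℕ) : ℝ) + 2))) * q
            = ENNReal.ofReal (q.toReal + 1 / (2 * (((j₀ - 1 : ℕ) : ℝ) + 2)) * q.toReal) := by
          rw [ENNReal.ofReal_add hq0 (by positivity), ENNReal.ofReal_mul hwpos,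
            ENNReal.ofReal_toReal hqtop]
        rw [e, ENNReal.ofReal_le_iff_le_toReal hGtop]
        have : (1 / (2 * (((j₀ - 1 : ℕ) : ℝ) + 2))) * q.toReal ≤ ρ / (b - a) * q.toReal := by gcongr
        calc q.toReal + 1 / (2 * (((j₀ - 1 : ℕ) : ℝ) + 2)) * q.toReal
            ≤ (1 + ρ / (b - a)) * q.toReal := by linarith
          _ ≤ (gaussianReal 0 1 (Icc (a - ρ) (b + ρ))).toReal := hfib
          _ ≤ G.toReal := hmono
      · rw [if_neg hj, add_zero]
        exact hq1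
    have hshift := sum_shift (fun j : ℕ => ENNReal.ofReal (1 / (2 * ((j : ℝ) + 2)))) q j₀ hj₀ 11
    simp only [hF, hj₀, if_true]
    calc q + ∑ j ∈ Finset.range 11, ENNReal.ofReal (1 / (2 * ((j : ℝ) + 2))) * (if j + 1 ≤ j₀ then q else 0)
        ≤ q + (∑ j ∈ Finset.range 11, ENNReal.ofReal (1 / (2 * ((j : ℝ) + 2))) * (if j + 2 ≤ j₀ then q else 0)
            + (if j₀ ≤ 11 then ENNReal.ofReal (1 / (2 * (((j₀ - 1 : ℕ) : ℝ) + 2))) * q else 0)) := by
          gcongr
      _ = (q + (if j₀ ≤ 11 then ENNReal.ofReal (1 / (2 * (((j₀ - 1 : ℕ) : ℝ) + 2))) * q else 0))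
            + ∑ j ∈ Finset.range 11, ENNReal.ofReal (1 / (2 * ((j : ℝ) + 2))) * (if j + 2 ≤ j₀ then q else 0) := by
          ring
      _ ≤ G + ∑ j ∈ Finset.range 11, ENNReal.ofReal (1 / (2 * ((j : ℝ) + 2))) * (if j + 2 ≤ j₀ then q else 0) := by
          gcongr
  · have hF : ∀ j : ℕ, gaussianReal 0 1 ((fun t : ℝ => (t, y)) ⁻¹' trunc K (2 * ρ * ((j + 1 : ℕ) : ℝ))) = 0 := by
      intro j
      have : y ∉ chord K (2 * ρ * ((j + 1 : ℕ) : ℝ)) := by
        intro h
        apply hy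
        refine chord_anti ?_ h
        push_cast
        have : (0 : ℝ) ≤ j := by positivity
        nlinarith
      rw [slice_trunc_of_notMem K this]
      simp
    have hF1 := hF 0
    simp only [zero_add] at hF1
    rw [hF1]
    simp only [hF, mul_zero, Finset.sum_const_zero, add_zero]
    exact zero_le

section Measure

variable [MeasurableSpace Y] [BorelSpace Y] [SecondCountableTopology Y]

lemma prod_drop (ν : Measure Y) [IsProbabilityMeasure ν] {K : Set (ℝ × Y)} (hK : IsCompact K)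
    (hc : Convex ℝ K) {L : ℝ} (hL : 0 ≤ L) :
    ((gaussianReal 0 1).prod ν) K ≤ ((gaussianReal 0 1).prod ν) (trunc K L) + ENNReal.ofReal (L / 2) := by
  have hm : MeasurableSet (trunc K L) := (trunc_isClosed hK L).measurableSet
  rw [Measure.prod_apply_symm hK.isClosed.measurableSet, Measure.prod_apply_symm hm]
  have hmeas := measurable_measure_prodMk_right (μ := gaussianReal 0 1) hm
  calc ∫⁻ y, gaussianReal 0 1 ((fun t : ℝ => (t, y)) ⁻¹' K) ∂ν
      ≤ ∫⁻ y, (gaussianReal 0 1 ((fun t : ℝ => (t, y)) ⁻¹' trunc K L) + ENNReal.ofReal (L / 2)) ∂ν := by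
        apply lintegral_mono
        intro y
        by_cases hy : y ∈ chord K L
        · refine le_trans (le_of_eq ?_) le_self_add
          rw [slice_trunc_of_mem K hy]
          rfl
        · refine le_trans ?_ le_add_self
          by_cases hne : (sec K y).Nonempty
          · obtain ⟨a, b, hab, hsec⟩ := sec_eq_Icc hK hc hne
            have hlt : b - a < L := by
              by_contra hcon
              exact hy ((mem_chord_iff hab hsec L).mpr (not_lt.mp hcon))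
            have e : (fun t : ℝ => (t, y)) ⁻¹' K = Icc a b := hsec
            show gaussianReal 0 1 ((fun t : ℝ => (t, y)) ⁻¹' K) ≤ _
            rw [e]
            refine (gauss_Icc_le a b hab).trans ?_
            apply ENNReal.ofReal_le_ofReal
            linarith
          · have e : (fun t : ℝ => (t, y)) ⁻¹' K = ∅ := Set.not_nonempty_iff_eq_empty.mp hne
            show gaussianReal 0 1 ((fun t : ℝ => (t, y)) ⁻¹' K) ≤ _
            rw [e]
            simp
    _ = ∫⁻ y, gaussianReal 0 1 ((fun t : ℝ => (t, y)) ⁻¹' trunc K L) ∂ν + ENNReal.ofReal (L / 2) := by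
        rw [lintegral_add_left hmeas]
        simp

/-- The star inequality along the first coordinate. -/
theorem star_core (ν : Measure Y) [IsProbabilityMeasure ν] {K : Set (ℝ × Y)} (hK : IsCompact K)
    (hc : Convex ℝ K)
    (hPL : ∀ A B C : Set (ℝ × Y), MeasurableSet A → MeasurableSet B → MeasurableSet C →
      (∀ a ∈ A, ∀ b ∈ B, (1 / 2 : ℝ) • (a + b) ∈ C) →
      ((gaussianReal 0 1).prod ν) A * ((gaussianReal 0 1).prod ν) B ≤ ((gaussianReal 0 1).prod ν) C ^ 2)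
    (h : 1 / 2 ≤ ((gaussianReal 0 1).prod ν) K) {ρ : ℝ} (hρ : 0 < ρ) (hρ' : ρ ≤ 1 / 500)
    (hSm : MeasurableSet (star K ((ρ, 0) : ℝ × Y))) :
    ((gaussianReal 0 1).prod ν) K ≤ ((gaussianReal 0 1).prod ν) (star K ((ρ, 0) : ℝ × Y)) := by
  set μ := (gaussianReal 0 1).prod ν with hμ
  have hTm : ∀ j : ℕ, MeasurableSet (trunc K (2 * ρ * (j : ℝ))) :=
    fun j => (trunc_isClosed hK _).measurableSet
  set H : ℕ → ℝ := fun j => (μ (trunc K (2 * ρ * (j : ℝ)))).toReal with hH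
  have hH0 : H 0 = (μ K).toReal := by
    simp only [hH, Nat.cast_zero, mul_zero, trunc_zero]
  have hKtop : μ K ≠ ⊤ := measure_ne_top _ _
  rw [← ENNReal.toReal_le_toReal hKtop (measure_ne_top _ _), ← hH0]
  apply star_numbers H _ ρ hρ hρ'
  · intro j
    apply ENNReal.toReal_mono (measure_ne_top _ _)
    apply measure_mono
    apply trunc_anti
    push_cast
    nlinarith
  · intro j
    have := hPL _ _ _ (hTm j) (hTm (j + 2)) (hTm (j + 1)) (by
      intro a ha b hb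
      have := trunc_mid hc ha hb
      convert this using 2
      push_cast
      ring)
    have h2 := ENNReal.toReal_mono (by simp [ENNReal.pow_eq_top_iff, measure_ne_top]) this
    simpa [ENNReal.toReal_mul, ENNReal.toReal_pow, hH] using h2
  · rw [hH0]
    have := ENNReal.toReal_mono hKtop h
    simpa using this
  · intro j
    have h1 := prod_drop ν hK hc (L := 2 * ρ * (j : ℝ)) (by positivity)
    have h2 := ENNReal.toReal_mono (by simp [measure_ne_top]) h1
    rw [ENNReal.toReal_add (measure_ne_top _ _) (by simp),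
      ENNReal.toReal_ofReal (by positivity)] at h2
    rw [hH0]
    have e : 2 * ρ * (j : ℝ) / 2 = ρ * j := by ring
    rw [e] at h2
    exact h2
  · -- integrate the pointwise inequality
    have hint := lintegral_mono (μ := ν) (pointwise (K := K) hK hc hρ hρ')
    have hmT : ∀ j : ℕ, Measurable fun y : Y =>
        gaussianReal 0 1 ((fun t : ℝ => (t, y)) ⁻¹' trunc K (2 * ρ * (j : ℝ))) :=
      fun j => measurable_measure_prodMk_right (hTm j)
    have hmG : Measurable fun y : Y =>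
        gaussianReal 0 1 ((fun t : ℝ => (t, y)) ⁻¹' star K ((ρ, 0) : ℝ × Y)) :=
      measurable_measure_prodMk_right hSm
    have hfub : ∀ j : ℕ, ∫⁻ y, gaussianReal 0 1 ((fun t : ℝ => (t, y)) ⁻¹' trunc K (2 * ρ * (j : ℝ))) ∂ν
        = μ (trunc K (2 * ρ * (j : ℝ))) := fun j => (Measure.prod_apply_symm (hTm j)).symm
    have hfubG : ∫⁻ y, gaussianReal 0 1 ((fun t : ℝ => (t, y)) ⁻¹' star K ((ρ, 0) : ℝ × Y)) ∂ν
        = μ (star K ((ρ, 0) : ℝ × Y)) := (Measure.prod_apply_symm hSm).symm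
    rw [lintegral_add_left (hmT 1), lintegral_add_left hmG,
      lintegral_finsetSum _ (fun j _ => (hmT (j + 1)).const_mul _),
      lintegral_finsetSum _ (fun j _ => (hmT (j + 2)).const_mul _)] at hint
    simp only [lintegral_const_mul _ (hmT _), hfub, hfubG] at hint
    have hfin : μ (star K ((ρ, 0) : ℝ × Y)) + ∑ j ∈ Finset.range 11, ENNReal.ofReal (1 / (2 * ((j : ℝ) + 2))) *
        μ (trunc K (2 * ρ * ((j + 2 : ℕ) : ℝ))) ≠ ⊤ := by
      apply ENNReal.add_ne_top.mpr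
      refine ⟨measure_ne_top _ _, ?_⟩
      apply ENNReal.sum_ne_top.mpr
      intro j _
      exact ENNReal.mul_ne_top ENNReal.ofReal_ne_top (measure_ne_top _ _)
    have hr := ENNReal.toReal_mono hfin hint
    have hsumr : ∀ i : ℕ, (∑ j ∈ Finset.range 11, ENNReal.ofReal (1 / (2 * ((j : ℝ) + 2))) *
        μ (trunc K (2 * ρ * ((j + i : ℕ) : ℝ)))).toReal
        = ∑ j ∈ Finset.range 11, (1 / (2 * ((j : ℝ) + 2))) * H (j + i) := by
      intro i
      rw [ENNReal.toReal_sum (fun j _ => ENNReal.mul_ne_top ENNReal.ofReal_ne_top (measure_ne_top _ _))]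
      apply Finset.sum_congr rfl
      intro j _
      rw [ENNReal.toReal_mul, ENNReal.toReal_ofReal (by positivity)]
    rw [ENNReal.toReal_add (measure_ne_top _ _)
        (ENNReal.sum_ne_top.mpr (fun j _ => ENNReal.mul_ne_top ENNReal.ofReal_ne_top (measure_ne_top _ _))),
      ENNReal.toReal_add (measure_ne_top _ _)
        (ENNReal.sum_ne_top.mpr (fun j _ => ENNReal.mul_ne_top ENNReal.ofReal_ne_top (measure_ne_top _ _))),
      hsumr 1, hsumr 2] at hr
    exact hr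

end Measure

end Vale.Agent.Lib.P262.Ban
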