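import Vale.Agent.Lib.P262.Ban.StarCore
import Vale.Agent.Lib.P262.Ban.PL
import Vale.Agent.Lib.P262.Ban.StarBasic

/-!
The star inequality for the standard Gaussian on Euclidean space, any direction (helper10).
-/

namespace Vale.Agent.Lib.P262.Ban

open MeasureTheory ProbabilityTheory Set
open scoped ENNReal

/-- The linear map to coordinates. -/
noncomputable def coord (n : ℕ) : (Fin (n + 1) → ℝ) →ₗ[ℝ] ℝ × (Fin n → ℝ) :=
  LinearMap.prod (LinearMap.proj 0) (LinearMap.pi fun i => LinearMap.proj i.succ)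

lemma coord_eq (n : ℕ) (x : Fin (n + 1) → ℝ) :
    MeasurableEquiv.piFinSuccAbove (fun _ : Fin (n + 1) => ℝ) 0 x = coord n x := by
  rfl

/-- The midpoint inequality on the product form of the Gaussian measure. -/
lemma prod_pl {n : ℕ} (A B C : Set (ℝ × (Fin n → ℝ))) (hA : MeasurableSet A) (hB : MeasurableSet B)
    (hC : MeasurableSet C) (h : ∀ a ∈ A, ∀ b ∈ B, (1 / 2 : ℝ) • (a + b) ∈ C) :
    ((gaussianReal 0 1).prod (gam n)) A * ((gaussianReal 0 1).prod (gam n)) B
      ≤ ((gaussianReal 0 1).prod (gam n)) C ^ 2 := by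
  have hP : MeasurePreserving (MeasurableEquiv.piFinSuccAbove (fun _ : Fin (n + 1) => ℝ) 0)
      (gam (n + 1)) ((gaussianReal 0 1).prod (gam n)) :=
    measurePreserving_piFinSuccAbove (fun _ : Fin (n + 1) => gaussianReal 0 1) 0
  set P := MeasurableEquiv.piFinSuccAbove (fun _ : Fin (n + 1) => ℝ) 0 with hPdef
  have e : ∀ S : Set (ℝ × (Fin n → ℝ)), MeasurableSet S →
      ((gaussianReal 0 1).prod (gam n)) S = gam (n + 1) (P ⁻¹' S) :=
    fun S hS => (hP.measure_preimage hS.nullMeasurableSet).symm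
  rw [e A hA, e B hB, e C hC]
  apply gauss_pl_sets (P.measurable hA) (P.measurable hB) (P.measurable hC)
  intro a ha b hb
  have := h _ ha _ hb
  show P ((1 / 2 : ℝ) • (a + b)) ∈ C
  convert this using 1
  simp only [hPdef, coord_eq, map_smul, map_add]

lemma ofLp_preserving (n : ℕ) :
    MeasurePreserving (fun x : EuclideanSpace ℝ (Fin n) => (WithLp.ofLp x : Fin n → ℝ))
      (stdGaussian (EuclideanSpace ℝ (Fin n))) (gam n) := by
  have hm : Measurable (fun x : EuclideanSpace ℝ (Fin n) => (WithLp.ofLp x : Fin n → ℝ)) :=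
    (PiLp.continuous_ofLp 2 _).measurable
  refine ⟨hm, ?_⟩
  rw [← map_pi_eq_stdGaussian, Measure.map_map hm (by fun_prop)]
  have : (fun x : EuclideanSpace ℝ (Fin n) => (WithLp.ofLp x : Fin n → ℝ)) ∘ (WithLp.toLp 2) = id := by
    ext x; rfl
  rw [this, Measure.map_id]
  rfl

/-- The key inequality of the star construction: for a compact convex set of Gaussian
measure at least one half and a vector of norm at most `1 / 500`, the star body has at least
the measure of the set. -/
theorem star_gamma {k : ℕ} {K : Set (EuclideanSpace ℝ (Fin k))} (hK : IsCompact K) (hc : Convex ℝ K)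
    (h : 1 / 2 ≤ stdGaussian (EuclideanSpace ℝ (Fin k)) K) {u : EuclideanSpace ℝ (Fin k)}
    (hu : ‖u‖ ≤ 1 / 500) :
    stdGaussian (EuclideanSpace ℝ (Fin k)) K ≤ stdGaussian (EuclideanSpace ℝ (Fin k)) (star K u) := by
  by_cases hu0 : u = 0
  · apply measure_mono
    intro x hx
    exact ⟨x, 2, 0, hx, le_rfl, by simpa [hu0] using hx, by norm_num, by norm_num, by simp⟩
  cases k with
  | zero => exact absurd (Subsingleton.elim u 0) hu0
  | succ n =>
    have hρ : 0 < ‖u‖ := norm_pos_iff.mpr hu0
    set γ := stdGaussian (EuclideanSpace ℝ (Fin (n + 1))) with hγ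
    set μ := (gaussianReal 0 1).prod (gam n) with hμ
    let e₀ : EuclideanSpace ℝ (Fin (n + 1)) := EuclideanSpace.single 0 1
    let R : EuclideanSpace ℝ (Fin (n + 1)) ≃ₗᵢ[ℝ] EuclideanSpace ℝ (Fin (n + 1)) :=
      Submodule.reflection (Submodule.span ℝ {u - ‖u‖ • e₀})ᗮ
    have hRu : R u = ‖u‖ • e₀ := by
      apply Submodule.reflection_sub
      simp [e₀, norm_smul]
    let T : EuclideanSpace ℝ (Fin (n + 1)) →ₗ[ℝ] ℝ × (Fin n → ℝ) :=
      (coord n).comp ((WithLp.linearEquiv 2 ℝ (Fin (n + 1) → ℝ)).toLinearMap.comp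
        R.toLinearEquiv.toLinearMap)
    have hTu : T u = (‖u‖, 0) := by
      show coord n (WithLp.ofLp (R u)) = _
      rw [hRu]
      ext i
      · simp [coord, e₀]
      · simp [coord, e₀, Fin.succ_ne_zero]
    have hTP : ∀ x, T x = MeasurableEquiv.piFinSuccAbove (fun _ : Fin (n + 1) => ℝ) 0
        (WithLp.ofLp (R x)) := fun x => rfl
    have hTinj : Function.Injective T := by
      intro x y hxy
      rw [hTP, hTP] at hxy
      have h1 := (MeasurableEquiv.piFinSuccAbove (fun _ : Fin (n + 1) => ℝ) 0).injective hxy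
      exact R.injective (WithLp.ofLp_injective 2 h1)
    have hTc : Continuous T := LinearMap.continuous_of_finiteDimensional T
    have hTm : MeasurePreserving T γ μ := by
      have hR : MeasurePreserving R γ γ := ⟨R.continuous.measurable, stdGaussian_map R⟩
      have hP : MeasurePreserving (MeasurableEquiv.piFinSuccAbove (fun _ : Fin (n + 1) => ℝ) 0)
          (gam (n + 1)) μ :=
        measurePreserving_piFinSuccAbove (fun _ : Fin (n + 1) => gaussianReal 0 1) 0
      exact (hP.comp (ofLp_preserving (n + 1))).comp hR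
    set K' := T '' K with hK'def
    have hK' : IsCompact K' := hK.image hTc
    have hc' : Convex ℝ K' := hc.linear_image T
    have hpre : ∀ S : Set (ℝ × (Fin n → ℝ)), MeasurableSet S → γ (T ⁻¹' S) = μ S :=
      fun S hS => hTm.measure_preimage hS.nullMeasurableSet
    have hγK : γ K ≤ μ K' := by
      calc γ K ≤ γ (T ⁻¹' K') := measure_mono (subset_preimage_image _ _)
        _ = μ K' := hpre _ hK'.isClosed.measurableSet
    have hstar' : IsCompact (star K' (T u)) := star_isCompact hK' (T u)
    have hstarm : MeasurableSet (star K' (T u)) := hstar'.isClosed.measurableSet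
    have hcore : μ K' ≤ μ (star K' (T u)) := by
      rw [hTu] at hstarm ⊢
      exact star_core (gam n) hK' hc' prod_pl (h.trans hγK) hρ hu hstarm
    have hsub : T ⁻¹' (star K' (T u)) ⊆ star K u := by
      rintro x ⟨_, τ, s, ⟨p, hp, rfl⟩, hτ, ⟨q, hq, hqe⟩, hs1, hs2, hx⟩
      have hq' : q = p + τ • u := hTinj (by rw [hqe, map_add, map_smul])
      have hx' : x = p + s • u := hTinj (by rw [hx, map_add, map_smul])
      exact ⟨p, τ, s, hp, hτ, hq' ▸ hq, hs1, hs2, hx'⟩
    calc γ K ≤ μ K' := hγK
      _ ≤ μ (star K' (T u)) := hcore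
      _ = γ (T ⁻¹' (star K' (T u))) := (hpre _ hstarm).symm
      _ ≤ γ (star K u) := measure_mono hsub

end Vale.Agent.Lib.P262.Ban
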